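import Mathlib.Data.ZMod.Basic
import Mathlib.Data.Fintype.BigOperators
import Mathlib.Data.Fintype.Pi
import Mathlib.Data.Fintype.Perm
import Mathlib.SetTheory.Cardinal.Finite

/-!
# P197: tableaux, polytabloids modulo two
-/

namespace Vale.Agent.P197

variable {N : ℕ}

/-- A tableau of partition shape on `Fin N`, given by row and column of each entry. -/
def IsTableau (row col : Fin N → Fin N) : Prop :=
  Function.Injective (fun x => (row x, col x)) ∧
    ∀ x a b, a ≤ row x → b ≤ col x → ∃ y, row y = a ∧ col y = b

/-- The rows have pairwise different lengths. -/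
def IsStrict (row : Fin N → Fin N) : Prop :=
  ∀ x y, row x ≠ row y →
    Nat.card {z // row z = row x} ≠ Nat.card {z // row z = row y}

open Classical in
/-- The polytabloid modulo 2 as a function of the tabloid `L`. -/
noncomputable def poly (row col : Fin N → Fin N) (L : Fin N → Fin N) : ZMod 2 :=
  if ∃ c : Equiv.Perm (Fin N), col ∘ c = col ∧ L = row ∘ c then 1 else 0

/-- The Gram matrix coefficient of the polytabloid. -/
noncomputable def gram (row col : Fin N → Fin N) (g : Equiv.Perm (Fin N)) : ZMod 2 :=
  ∑ L : Fin N → Fin N, poly row col L * poly row col (L ∘ g)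

end Vale.Agent.P197
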