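import Vale.Agent.P197.IdealBasic
import Vale.Agent.P197.IdealDefs

/-!
# P197: column permutations and polytabloids
-/

namespace Vale.Agent.P197

open Finset

variable {N : ℕ} {row col : Fin N → Fin N}

theorem IsTableau.swap (h : IsTableau row col) : IsTableau col row := by
  refine ⟨fun x y hxy => h.1 ?_, fun x a b ha hb => ?_⟩
  · simp only [Prod.mk.injEq] at hxy ⊢
    exact hxy.symm
  · obtain ⟨y, h1, h2⟩ := h.2 x b a hb ha
    exact ⟨y, h2, h1⟩

/-- The column index is smaller than the length of the row. -/
theorem IsTableau.col_lt (h : IsTableau row col) (x : Fin N) : (col x : ℕ) < cnt row (row x) := by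
  classical
  have h1 : Finset.Iic (col x) ⊆ Finset.image col {w | row w = row x} := by
    intro b hb
    obtain ⟨y, hy, hy'⟩ := h.2 x (row x) b le_rfl (Finset.mem_Iic.1 hb)
    exact Finset.mem_image.2 ⟨y, by simp [hy], hy'⟩
  have := (Finset.card_le_card h1).trans Finset.card_image_le
  rw [Fin.card_Iic] at this
  exact this

/-- Every index below the length of a row occurs in it. -/
theorem IsTableau.exists_cell (h : IsTableau row col) {a b : Fin N} (hb : (b : ℕ) < cnt row a) :
    ∃ y, row y = a ∧ col y = b := by
  by_contra hc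
  have h1 : ∀ w, row w = a → col w < b := fun w hw => by
    by_contra hlt
    obtain ⟨y, hy, hy'⟩ := h.2 w a b hw.ge (not_lt.1 hlt)
    exact hc ⟨y, hy, hy'⟩
  have h2 : cnt row a ≤ #(Finset.Iio b) := by
    refine Finset.card_le_card_of_injOn col (fun w hw => ?_) fun w hw w' hw' e => h.1 ?_
    · simp only [Finset.coe_filter, Finset.mem_univ, true_and, Set.mem_ofPred_eq] at hw
      simpa using h1 w hw
    · simp only [Finset.coe_filter, Finset.mem_univ, true_and, Set.mem_ofPred_eq] at hw hw'
      simp [hw, hw', e]
  rw [Fin.card_Iio] at h2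
  omega

/-- A labelling without repetition in the columns. -/
def ColInj (col L : Lab N) : Prop := ∀ z w, col z = col w → L z = L w → z = w

open Classical in
/-- The column stabiliser. -/
noncomputable def colStab (col : Lab N) : Finset (Equiv.Perm (Fin N)) :=
  {c | col ∘ ⇑c = col}

theorem mem_colStab {c : Equiv.Perm (Fin N)} : c ∈ colStab col ↔ col ∘ ⇑c = col := by
  simp [colStab]

theorem colInj_comp (h : IsTableau row col) {c : Equiv.Perm (Fin N)} (hc : c ∈ colStab col) :
    ColInj col (row ∘ c) := by
  intro z w hcol hL
  rw [mem_colStab] at hc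
  refine c.injective (h.1 (Prod.ext hL ?_))
  exact (congrFun hc z).trans (hcol.trans (congrFun hc w).symm)

/-- Labellings without repetition in the columns, with the content of the shape, come from the
column stabiliser. -/
theorem exists_colStab (h : IsTableau row col) {L : Lab N} (hcnt : cnt L = cnt row)
    (hinj : ColInj col L) : ∃ c ∈ colStab col, L = row ∘ c := by
  classical
  -- lengths of columns
  have hlen : ∀ z, (L z : ℕ) < cnt col (col z) := by
    intro z
    by_contra hz
    push Not at hz
    have hpos : 0 < cnt col (col z) := Finset.card_pos.2 ⟨z, by simp⟩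
    obtain ⟨a, ha⟩ : ∃ a : Fin N, (a : ℕ) + 1 = cnt col (col z) :=
      ⟨⟨cnt col (col z) - 1, by have := (L z).isLt; omega⟩, by simp; omega⟩
    let A : Fin N → Finset (Fin N) := fun b => {w | col w = b ∧ L w ≤ a}
    let B : Fin N → Finset (Fin N) := fun b => {w | col w = b ∧ row w ≤ a}
    have hA : ∀ b, #(A b) ≤ #(B b) := by
      intro b
      rcases le_or_gt ((a : ℕ) + 1) (cnt col b) with hb | hb
      · have e1 : #(A b) ≤ #(Finset.Iic a) := by
          refine Finset.card_le_card_of_injOn L (fun w hw => ?_) fun w hw w' hw' e => ?_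
          · simp [A] at hw; simpa using hw.2
          · simp [A] at hw hw'; exact hinj w w' (hw.1.trans hw'.1.symm) e
        have e2 : Finset.Iic a ⊆ (B b).image row := by
          intro i hi
          obtain ⟨y, hy, hy'⟩ := h.swap.exists_cell (a := b) (b := i) (by
            have : i ≤ a := Finset.mem_Iic.1 hi
            rw [Fin.le_def] at this
            omega)
          exact Finset.mem_image.2 ⟨y, by simpa [B, hy, hy'] using Finset.mem_Iic.1 hi, hy'⟩
        exact e1.trans ((Finset.card_le_card e2).trans Finset.card_image_le)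
      · refine le_of_le_of_eq (Finset.card_le_card fun w hw => ?_) (rfl : #(B b) = #(B b))
        simp [A] at hw
        have := h.swap.col_lt w
        rw [hw.1] at this
        simp [B, hw.1]
        omega
    have htot : ∑ b, #(A b) = ∑ b, #(B b) := by
      have e : ∀ M : Lab N, ∑ b, #({w | col w = b ∧ M w ≤ a} : Finset (Fin N)) =
          ∑ i ∈ Finset.Iic a, cnt M i := by
        intro M
        rw [sum_cnt, Finset.card_eq_sum_card_fiberwise (f := col) (t := Finset.univ)
          (fun w _ => Finset.mem_univ _)]
        refine Finset.sum_congr rfl fun b _ => congrArg Finset.card ?_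
        ext w
        simp [and_comm]
      simp only [A, B]
      rw [e L, e row, hcnt]
    have heq := (Finset.sum_eq_sum_iff_of_le fun b _ => hA b).1 htot (col z) (Finset.mem_univ _)
    have hBall : B (col z) = ({w | col w = col z} : Finset (Fin N)) := by
      ext w
      simp only [B, Finset.mem_filter, Finset.mem_univ, true_and, and_iff_left_iff_imp]
      intro hw
      have := h.swap.col_lt w
      rw [hw] at this
      omega
    have hsub : A (col z) ⊆ B (col z) := by
      rw [hBall]; intro w hw; simp [A] at hw; simp [hw.1]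
    have : z ∈ A (col z) := by
      rw [Finset.eq_of_subset_of_card_le hsub heq.ge, hBall]; simp
    simp [A] at this
    omega
  choose c hc1 hc2 using fun z => h.swap.exists_cell (hlen z)
  have hbij : Function.Bijective c := Finite.injective_iff_bijective.1 fun z w e =>
    hinj z w (by rw [← hc1 z, e, hc1 w]) (by rw [← hc2 z, e, hc2 w])
  exact ⟨Equiv.ofBijective c hbij, mem_colStab.2 (funext hc1), (funext hc2).symm⟩

theorem poly_eq_one_iff (L : Lab N) :
    poly row col L = 1 ↔ ∃ c ∈ colStab col, L = row ∘ c := by
  simp only [poly, mem_colStab]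
  split_ifs with h <;> simp [h]

theorem poly_eq_one_of (L : Lab N) (h : poly row col L ≠ 0) :
    ∃ c ∈ colStab col, L = row ∘ c :=
  (poly_eq_one_iff L).1 (f2_eq_one h)

theorem poly_mem (row col : Lab N) : poly row col ∈ Msub (cnt row) := fun L hL => by
  by_contra h
  obtain ⟨c, -, rfl⟩ := poly_eq_one_of L h
  exact hL (cnt_comp row c)

/-- Pairing against a polytabloid. -/
theorem pair_poly (h : IsTableau row col) (x : Sp N) :
    pair x (poly row col) = ∑ c ∈ colStab col, x (row ∘ c) := by
  classical
  rw [pair, ← Finset.sum_subset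
    (s₁ := (colStab col).image fun c : Equiv.Perm (Fin N) => row ∘ (c : Fin N → Fin N))
    (Finset.subset_univ _)
    (fun L _ hL => by
      rcases eq_or_ne (poly row col L) 0 with h0 | h0
      · simp [h0]
      · obtain ⟨c, hc, rfl⟩ := poly_eq_one_of L h0
        exact absurd (Finset.mem_image.2 ⟨c, hc, rfl⟩) hL)]
  rw [Finset.sum_image]
  · refine Finset.sum_congr rfl fun c hc => ?_
    rw [(poly_eq_one_iff _).2 ⟨c, hc, rfl⟩, mul_one]
  · intro c hc d hd e
    have hc' := mem_colStab.1 hc
    have hd' := mem_colStab.1 hd
    refine Equiv.ext fun z => h.1 (Prod.ext (congrFun e z) ?_)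
    exact (congrFun hc' z).trans (congrFun hd' z).symm

theorem swap_mem_colStab {z w : Fin N} (e : col z = col w) : Equiv.swap z w ∈ colStab col := by
  refine mem_colStab.2 (funext fun u => ?_)
  simp only [Function.comp_apply, Equiv.swap_apply_def]
  split_ifs with h1 h2
  · rw [h1, e]
  · rw [h2, e]
  · rfl

theorem colStab_mul {c d : Equiv.Perm (Fin N)} (hc : c ∈ colStab col) (hd : d ∈ colStab col) :
    c * d ∈ colStab col := by
  rw [mem_colStab] at hc hd ⊢
  rw [Equiv.Perm.coe_mul, ← Function.comp_assoc, hc, hd]

theorem colStab_inv {c : Equiv.Perm (Fin N)} (hc : c ∈ colStab col) : c⁻¹ ∈ colStab col := by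
  rw [mem_colStab] at hc ⊢
  funext z
  have := congrFun hc (c⁻¹ z)
  simpa using this.symm

/-- The column antisymmetriser maps everything to multiples of the polytabloid. -/
theorem sum_colStab_tr (h : IsTableau row col) {x : Sp N} (hx : x ∈ Msub (cnt row)) :
    ∑ c ∈ colStab col, tr c x = pair x (poly row col) • poly row col := by
  classical
  funext L
  rw [Finset.sum_apply, Pi.smul_apply, smul_eq_mul]
  simp only [tr_apply]
  by_cases hinj : ColInj col L
  · by_cases hcnt : cnt L = cnt row
    · obtain ⟨d, hd, rfl⟩ := exists_colStab h hcnt hinj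
      rw [(poly_eq_one_iff _).2 ⟨d, hd, rfl⟩, mul_one, pair_poly h]
      refine Finset.sum_bij' (fun c _ => d * c) (fun c _ => d⁻¹ * c)
        (fun c hc => colStab_mul hd hc) (fun c hc => colStab_mul (colStab_inv hd) hc)
        (fun c _ => inv_mul_cancel_left d c) (fun c _ => mul_inv_cancel_left d c) fun c _ => ?_
      rfl
    · rw [poly_mem row col L hcnt, mul_zero]
      exact Finset.sum_eq_zero fun c _ => hx _ (by rwa [cnt_comp])
  · have h0 : poly row col L = 0 := by
      by_contra hne
      obtain ⟨d, hd, rfl⟩ := poly_eq_one_of L hne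
      exact hinj (colInj_comp h hd)
    rw [h0, mul_zero]
    simp only [ColInj, not_forall] at hinj
    obtain ⟨z, w, hcol, hL, hne⟩ := hinj
    have hLs : L ∘ ⇑(Equiv.swap z w) = L := by
      funext u
      simp only [Function.comp_apply, Equiv.swap_apply_def]
      split_ifs with h1 h2
      · rw [h1, hL]
      · rw [h2, hL]
      · rfl
    refine Finset.sum_involution (fun c _ => Equiv.swap z w * c) (fun c _ => ?_) (fun c _ _ => ?_)
      (fun c hc => colStab_mul (swap_mem_colStab hcol) hc) fun c _ => ?_
    · rw [Equiv.Perm.coe_mul, ← Function.comp_assoc L, hLs]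
      exact f2_two _
    · intro e
      exact hne (Equiv.swap_eq_one_iff.1 (mul_eq_right.1 e))
    · rw [← mul_assoc, Equiv.swap_mul_self, one_mul]

/-- Translates of polytabloids are polytabloids. -/
theorem exists_tr_poly {row' col' : Lab N} (h : IsTableau row col) (h' : IsTableau row' col')
    (hcnt : cnt row' = cnt row) : ∃ g, poly row' col' = tr g (poly row col) := by
  classical
  choose φ h1 h2 using fun x => h'.exists_cell (a := row x) (b := col x)
    (by rw [hcnt]; exact h.col_lt x)
  have hbij : Function.Bijective φ := Finite.injective_iff_bijective.1 fun x y e =>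
    h.1 (Prod.ext (show row x = row y by rw [← h1 x, e, h1 y])
      (show col x = col y by rw [← h2 x, e, h2 y]))
  let g := Equiv.ofBijective φ hbij
  have hr : row' ∘ ⇑g = row := funext h1
  have hcl : col' ∘ ⇑g = col := funext h2
  have hr' : row' = row ∘ ⇑g⁻¹ := by rw [← hr]; funext z; simp
  have hcl' : col' = col ∘ ⇑g⁻¹ := by rw [← hcl]; funext z; simp
  refine ⟨g, funext fun L => ?_⟩
  rw [tr_apply]
  have key : (∃ c ∈ colStab col', L = row' ∘ c) ↔ ∃ c ∈ colStab col, L ∘ ⇑g = row ∘ c := by
    constructor
    · rintro ⟨c, hc, rfl⟩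
      refine ⟨g⁻¹ * c * g, mem_colStab.2 (funext fun z => ?_), funext fun z => ?_⟩
      · have := congrFun (mem_colStab.1 hc) (g z)
        rw [hcl'] at this
        simpa using this
      · rw [hr']; simp
    · rintro ⟨c, hc, e⟩
      refine ⟨g * c * g⁻¹, mem_colStab.2 (funext fun z => ?_), funext fun z => ?_⟩
      · rw [hcl']
        simpa using congrFun (mem_colStab.1 hc) (g⁻¹ z)
      · have := congrFun e (g⁻¹ z)
        rw [hr']
        simpa using this
  by_cases hL : ∃ c ∈ colStab col', L = row' ∘ c
  · rw [(poly_eq_one_iff L).2 hL, (poly_eq_one_iff _).2 (key.1 hL)]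
  · have e1 : poly row' col' L = 0 := by
      by_contra hn; exact hL (poly_eq_one_of L hn)
    have e2 : poly row col (L ∘ ⇑g) = 0 := by
      by_contra hn; exact hL (key.2 (poly_eq_one_of _ hn))
    rw [e1, e2]

/-- Two rows of the same length make all products of polytabloids vanish. -/
theorem pair_poly_poly_zero {row' col' : Lab N} (h : IsTableau row col) (h' : IsTableau row' col')
    (hcnt : cnt row' = cnt row) {a b : Fin N} (hab : a ≠ b) (hlen : cnt row a = cnt row b)
    (hpos : 0 < cnt row a) : pair (poly row col) (poly row' col') = 0 := by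
  classical
  let σ := Equiv.swap a b
  have stable : ∀ {r c : Lab N}, IsTableau r c → cnt r = cnt row → ∀ L : Lab N,
      poly r c (⇑σ ∘ L) = poly r c L := by
    intro r c hrc hr
    have hlen' : cnt r a = cnt r b := by rw [hr]; exact hlen
    have hex : ∀ x, ∃ y, r y = σ (r x) ∧ c y = c x := fun x => hrc.exists_cell (by
      have := hrc.col_lt x
      simp only [σ, Equiv.swap_apply_def]
      split_ifs with e1 e2
      · rw [e1] at this; omega
      · rw [e2] at this; omega
      · exact this)
    choose d hd1 hd2 using hex
    have hbij : Function.Bijective d := Finite.injective_iff_bijective.1 fun x y e =>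
      hrc.1 (Prod.ext (σ.injective (show σ (r x) = σ (r y) by rw [← hd1 x, e, hd1 y]))
        (show c x = c y by rw [← hd2 x, e, hd2 y]))
    have dmem : Equiv.ofBijective d hbij ∈ colStab c := mem_colStab.2 (funext hd2)
    have fwd : ∀ L, poly r c L ≠ 0 → poly r c (⇑σ ∘ L) = 1 := fun L hL => by
      obtain ⟨e, he, rfl⟩ := poly_eq_one_of L hL
      refine (poly_eq_one_iff _).2 ⟨Equiv.ofBijective d hbij * e, colStab_mul dmem he,
        funext fun z => ?_⟩
      simp [hd1]
    intro L
    by_cases h1 : poly r c L = 0
    · rw [h1]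
      by_contra h2
      have := fwd _ h2
      rw [← Function.comp_assoc, show (⇑σ ∘ ⇑σ : Lab N) = id from funext (Equiv.swap_apply_self a b),
        Function.id_comp] at this
      rw [h1] at this
      exact zero_ne_one this
    · rw [f2_eq_one h1, fwd L h1]
  refine Finset.sum_involution (fun L _ => ⇑σ ∘ L) (fun L _ => ?_) (fun L _ hne => ?_)
    (fun _ _ => Finset.mem_univ _) fun L _ => ?_
  · rw [stable h rfl, stable h' hcnt]
    exact f2_two _
  · intro e
    have hL : cnt L = cnt row := by
      by_contra hc
      exact hne (by rw [poly_mem row col L hc, zero_mul])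
    rw [← hL] at hpos
    obtain ⟨z, hz⟩ := Finset.card_pos.1 hpos
    simp only [Finset.mem_filter, Finset.mem_univ, true_and] at hz
    have := congrFun e z
    simp only [Function.comp_apply, hz, σ, Equiv.swap_apply_left] at this
    exact hab this.symm
  · funext z
    simp [σ]

end Vale.Agent.P197
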