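import Mathlib.Order.PiLex
import Vale.Agent.P197.IdealTableau

/-!
# P197: straightening

The functions killed by all the maps to larger contents are spanned by polytabloids.
-/

namespace Vale.Agent.P197

open Finset

variable {N : ℕ}

/-- The content with `t` cells moved from row `j` to row `i`. -/
def lam (ν : Fin N → ℕ) (i j : Fin N) (t : ℕ) : Fin N → ℕ :=
  Function.update (Function.update ν i (ν i + t)) j (ν j - t)

/-- `L` is obtained from `L'` by moving elements from row `i` to row `j`. -/
def Moved (i j : Fin N) (L' L : Lab N) : Prop := ∀ z, L z = L' z ∨ (L' z = i ∧ L z = j)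

instance (i j : Fin N) (L' L : Lab N) : Decidable (Moved i j L' L) :=
  inferInstanceAs (Decidable (∀ z, L z = L' z ∨ (L' z = i ∧ L z = j)))

theorem Moved.comp {i j : Fin N} {L' L : Lab N} (h : Moved i j L' L) (g : Fin N → Fin N) :
    Moved i j (L' ∘ g) (L ∘ g) := fun z => h (g z)

theorem moved_comp_iff {i j : Fin N} {L' L : Lab N} (g : Equiv.Perm (Fin N)) :
    Moved i j (L' ∘ g) (L ∘ g) ↔ Moved i j L' L := by
  refine ⟨fun h => ?_, fun h => h.comp _⟩
  have := h.comp g.symm
  simpa [Function.comp_assoc] using this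

/-- The map from the content `lam ν i j t` to the content `ν`. -/
def theta (ν : Fin N → ℕ) (i j : Fin N) (t : ℕ) : Sp N →ₗ[F2] Sp N where
  toFun x L := ∑ L', if cnt L = ν ∧ cnt L' = lam ν i j t ∧ Moved i j L' L then x L' else 0
  map_add' x y := by
    funext L
    simp only [Pi.add_apply, ← Finset.sum_add_distrib]
    exact Finset.sum_congr rfl fun L' _ => by split_ifs <;> simp
  map_smul' c x := by
    funext L
    simp only [Pi.smul_apply, smul_eq_mul, RingHom.id_apply, Finset.mul_sum]
    exact Finset.sum_congr rfl fun L' _ => by split_ifs <;> simp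

theorem theta_apply (ν : Fin N → ℕ) (i j : Fin N) (t : ℕ) (x : Sp N) (L : Lab N) :
    theta ν i j t x L =
      ∑ L', if cnt L = ν ∧ cnt L' = lam ν i j t ∧ Moved i j L' L then x L' else 0 := rfl

theorem theta_tr (ν : Fin N → ℕ) (i j : Fin N) (t : ℕ) (g : Equiv.Perm (Fin N)) (x : Sp N) :
    theta ν i j t (tr g x) = tr g (theta ν i j t x) := by
  funext L
  simp only [tr_apply, theta_apply]
  refine Fintype.sum_equiv (Equiv.arrowCongr g.symm (Equiv.refl (Fin N))) _ _ fun L' => ?_
  have e : Equiv.arrowCongr g.symm (Equiv.refl (Fin N)) L' = L' ∘ ⇑g := by ext z; simp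
  simp only [e, cnt_comp, moved_comp_iff]

/-- The admissible moves. -/
def steps (ν : Fin N → ℕ) : Finset (Fin N × Fin N × Fin (N + 1)) :=
  {p | (p.2.1 : ℕ) = p.1 + 1 ∧ 1 ≤ (p.2.2 : ℕ) ∧ (p.2.2 : ℕ) ≤ ν p.2.1}

/-- The sum of the images from larger contents. -/
def Tsum (ν : Fin N → ℕ) : Submodule F2 (Sp N) :=
  (steps ν).sup fun p => (Msub (lam ν p.1 p.2.1 p.2.2)).map (theta ν p.1 p.2.1 p.2.2)

theorem inv_Tsum (ν : Fin N → ℕ) : Inv (Tsum ν) := by
  refine Finset.sup_induction (fun g x hx => ?_) (fun P hP Q hQ => hP.sup hQ)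
    fun p _ => (inv_Msub _).map _ (theta_tr ν _ _ _)
  rw [Submodule.mem_bot] at hx ⊢
  rw [hx, map_zero]

theorem Tsum_le (ν : Fin N → ℕ) : Tsum ν ≤ Msub ν := by
  refine Finset.sup_le fun p _ => ?_
  rintro _ ⟨x, -, rfl⟩ L hL
  exact Finset.sum_eq_zero fun L' _ => if_neg fun h => hL h.1

/-- The equations satisfied by the vectors orthogonal to `Tsum`. -/
theorem perp_Tsum_eq {ν : Fin N → ℕ} {y : Sp N} (hy : ∀ z ∈ Tsum ν, pair y z = 0)
    {i j : Fin N} {t : ℕ} (hij : (j : ℕ) = i + 1) (ht : 1 ≤ t) (htj : t ≤ ν j) (htN : t ≤ N)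
    {L' : Lab N} (hL' : cnt L' = lam ν i j t) :
    ∑ L, (if cnt L = ν ∧ Moved i j L' L then y L else 0) = 0 := by
  classical
  have hmem : theta ν i j t (Pi.single L' 1) ∈ Tsum ν := by
    have hp : (i, j, (⟨t, Nat.lt_succ_of_le htN⟩ : Fin (N + 1))) ∈ steps ν := by
      simp [steps, hij, ht, htj]
    refine Finset.le_sup (f := fun p : Fin N × Fin N × Fin (N + 1) =>
      (Msub (lam ν p.1 p.2.1 p.2.2)).map (theta ν p.1 p.2.1 p.2.2)) hp
      (Submodule.mem_map_of_mem fun L hL => ?_)
    refine Pi.single_eq_of_ne ?_ _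
    rintro rfl
    exact hL hL'
  refine Eq.trans ?_ (hy _ hmem)
  refine Finset.sum_congr rfl fun L _ => ?_
  rw [theta_apply, Finset.sum_eq_single L' (fun M _ hM => by simp [hM]) (by simp)]
  simp [hL']

theorem cnt_lam_fst {ν : Fin N → ℕ} {i j : Fin N} (hij : i ≠ j) (t : ℕ) :
    lam ν i j t i = ν i + t := by simp [lam, hij]

/-- Polytabloids are orthogonal to the images from larger contents. -/
theorem poly_perp_Tsum {row col : Lab N} (h : IsTableau row col) (hν : Antitone (cnt row))
    {z : Sp N} (hz : z ∈ Tsum (cnt row)) : pair (poly row col) z = 0 := by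
  classical
  suffices H : ∀ p ∈ steps (cnt row), ∀ x,
      pair (poly row col) (theta (cnt row) p.1 p.2.1 p.2.2 x) = 0 by
    let K : Submodule F2 (Sp N) :=
      { carrier := {w | pair (poly row col) w = 0}
        zero_mem' := by simp [pair]
        add_mem' := fun {a b} ha hb => by
          show pair _ _ = 0
          rw [pair_add_right, ha, hb, add_zero]
        smul_mem' := fun c a ha => by
          show pair _ _ = 0
          rw [pair_smul_right, ha, mul_zero] }
    have : Tsum (cnt row) ≤ K := Finset.sup_le fun p hp => by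
      rintro _ ⟨x, -, rfl⟩; exact H p hp x
    exact this hz
  rintro ⟨i, j, t⟩ hp x
  simp only [steps, Finset.mem_filter, Finset.mem_univ, true_and] at hp
  obtain ⟨hij, ht, -⟩ := hp
  rw [pair_comm, pair_poly h]
  simp only [theta_apply]
  rw [Finset.sum_comm]
  refine Finset.sum_eq_zero fun L' _ => ?_
  by_cases hex : ∃ c ∈ colStab col, cnt (row ∘ ⇑c) = cnt row ∧ cnt L' = lam (cnt row) i j t ∧
      Moved i j L' (row ∘ ⇑c)
  · obtain ⟨c, hc, -, hL', hmv⟩ := hex
    have hne : i ≠ j := fun e => by rw [e] at hij; omega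
    have hle : i ≤ j := Fin.le_def.2 (by omega)
    have hcard : #({b | (b : ℕ) < cnt row i} : Finset (Fin N)) <
        #({u | L' u = i} : Finset (Fin N)) := by
      have e1 : #({b | (b : ℕ) < cnt row i} : Finset (Fin N)) ≤ cnt row i := by
        rw [Fin.card_filter_val_lt]; omega
      have e2 : #({u | L' u = i} : Finset (Fin N)) = cnt row i + t := by
        rw [← cnt_lam_fst hne (t : ℕ) (ν := cnt row)]
        exact congrFun hL' i
      omega
    obtain ⟨u, hu, w, hw, huw, heq⟩ := Finset.exists_ne_map_eq_of_card_lt_of_maps_to hcard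
      (f := col) fun u hu => by
        simp only [Finset.coe_filter, Finset.mem_univ, true_and, Set.mem_ofPred_eq] at hu ⊢
        rw [← congrFun (mem_colStab.1 hc) u]
        refine lt_of_lt_of_le (h.col_lt (c u)) (hν ?_)
        rcases hmv u with e | ⟨-, e⟩
        · rw [Function.comp_apply] at e; rw [e, hu]
        · rw [Function.comp_apply] at e; rw [e]; exact hle
    simp only [Finset.mem_filter, Finset.mem_univ, true_and] at hu hw
    have hL's : L' ∘ ⇑(Equiv.swap u w) = L' := by
      funext v
      simp only [Function.comp_apply, Equiv.swap_apply_def]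
      split_ifs with e1 e2
      · rw [e1, hu, hw]
      · rw [e2, hu, hw]
      · rfl
    have hτ := swap_mem_colStab (col := col) heq
    refine Finset.sum_involution (fun d _ => d * Equiv.swap u w) (fun d _ => ?_) (fun d _ _ => ?_)
      (fun d hd => colStab_mul hd hτ) fun d _ => ?_
    · have e1 : (row ∘ ⇑(d * Equiv.swap u w) : Lab N) = (row ∘ ⇑d) ∘ ⇑(Equiv.swap u w) := rfl
      have e2 : Moved i j L' ((row ∘ ⇑d) ∘ ⇑(Equiv.swap u w)) ↔ Moved i j L' (row ∘ ⇑d) := by
        conv_lhs => rw [← hL's]
        exact moved_comp_iff _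
      simp only [e1, cnt_comp, e2]
      exact f2_two _
    · intro e
      exact huw (Equiv.swap_eq_one_iff.1 (mul_eq_left.1 e))
    · rw [mul_assoc, Equiv.swap_mul_self, mul_one]
  · refine Finset.sum_eq_zero fun c hc => if_neg fun hcond => hex ⟨c, hc, hcond⟩

/-- The rank of an element in its row. -/
def rank (L : Lab N) (z : Fin N) : Fin N :=
  ⟨#{w | L w = L z ∧ w < z}, lt_of_lt_of_eq (Finset.card_lt_card
    ⟨Finset.subset_univ _, fun h => by have := h (Finset.mem_univ z); simp at this⟩)
    (Finset.card_fin N)⟩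

theorem rank_lt (L : Lab N) (z : Fin N) : (rank L z : ℕ) < cnt L (L z) := by
  show #({w | L w = L z ∧ w < z} : Finset (Fin N)) < #({w | L w = L z} : Finset (Fin N))
  refine Finset.card_lt_card ⟨fun w hw => ?_, fun h => ?_⟩
  · simp only [Finset.mem_filter, Finset.mem_univ, true_and] at hw ⊢
    exact hw.1
  · have := h (x := z) (by simp)
    simp at this

theorem rank_strictMono (L : Lab N) {z w : Fin N} (h : L z = L w) (hzw : z < w) :
    rank L z < rank L w := by
  show #({u | L u = L z ∧ u < z} : Finset (Fin N)) < #({u | L u = L w ∧ u < w} : Finset (Fin N))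
  refine Finset.card_lt_card ⟨fun u hu => ?_, fun hs => ?_⟩
  · simp only [Finset.mem_filter, Finset.mem_univ, true_and] at hu ⊢
    exact ⟨hu.1.trans h, hu.2.trans hzw⟩
  · have := hs (x := z) (by simp [h, hzw])
    simp at this

theorem rank_injective (L : Lab N) : Function.Injective fun z => (L z, rank L z) := by
  intro z w h
  simp only [Prod.mk.injEq] at h
  rcases lt_trichotomy z w with hlt | rfl | hlt
  · exact absurd h.2 (rank_strictMono L h.1 hlt).ne
  · rfl
  · exact absurd h.2.symm (rank_strictMono L h.1.symm hlt).ne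

theorem rank_isTableau {L : Lab N} (hν : Antitone (cnt L)) : IsTableau L (rank L) := by
  refine ⟨rank_injective L, fun x a b ha hb => ?_⟩
  have hlt : (b : ℕ) < cnt L a := by
    have h1 := rank_lt L x
    have h2 : cnt L (L x) ≤ cnt L a := hν ha
    have h3 : (b : ℕ) ≤ rank L x := hb
    omega
  have himg : ({z | L z = a} : Finset (Fin N)).image (fun z => (rank L z : ℕ)) =
      Finset.range (cnt L a) := by
    refine Finset.eq_of_subset_of_card_le (fun m hm => ?_) ?_
    · obtain ⟨z, hz, rfl⟩ := Finset.mem_image.1 hm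
      simp only [Finset.mem_filter, Finset.mem_univ, true_and] at hz
      exact Finset.mem_range.2 (hz ▸ rank_lt L z)
    · rw [Finset.card_range, Finset.card_image_of_injOn]
      · exact le_rfl
      · intro z hz w hw e
        simp only [Finset.coe_filter, Finset.mem_univ, true_and, Set.mem_ofPred_eq] at hz hw
        exact rank_injective L (Prod.ext (hz.trans hw.symm) (Fin.ext e))
  obtain ⟨y, hy, hy'⟩ := Finset.mem_image.1 (himg.symm ▸ Finset.mem_range.2 hlt)
  simp only [Finset.mem_filter, Finset.mem_univ, true_and] at hy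
  exact ⟨y, hy, Fin.ext hy'⟩

/-- Columns increase. -/
def Std (L : Lab N) : Prop := ∀ z w, rank L z = rank L w → L z < L w → z < w

theorem exists_violation {L : Lab N} (hν : Antitone (cnt L)) (h : ¬ Std L) :
    ∃ z w, (L w : ℕ) = L z + 1 ∧ rank L z = rank L w ∧ w < z := by
  by_contra hc
  push Not at hc
  apply h
  suffices ∀ d z w, (L w : ℕ) = L z + d → rank L z = rank L w → L z < L w → z < w from
    fun z w hr hl => this ((L w : ℕ) - L z) z w (by have := Fin.lt_def.1 hl; omega) hr hl
  intro d
  induction d with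
  | zero => intro z w e _ hl; have := Fin.lt_def.1 hl; omega
  | succ d ih =>
    intro z w e hr hl
    have hle : (L z : ℕ) + 1 < N := by have := (L w).isLt; omega
    let a : Fin N := ⟨L z + 1, hle⟩
    obtain ⟨v, hv, hv'⟩ := (rank_isTableau hν).2 w a (rank L w)
      (Fin.le_def.2 (by simp [a]; omega)) le_rfl
    have hz : z ≤ v := hc z v (by rw [hv]) (hr.trans hv'.symm)
    rcases Nat.eq_zero_or_pos d with rfl | hd
    · have : v = w := rank_injective L (Prod.ext (Fin.ext (by simp [hv, a]; omega)) hv')
      subst this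
      exact lt_of_le_of_ne hz fun e' => hl.ne (by rw [e'])
    · have h1 : (L w : ℕ) = L v + d := by rw [hv]; simp [a]; omega
      exact hz.trans_lt (ih v w h1 hv' (Fin.lt_def.2 (by omega)))

/-- The order on labellings: compare at the largest place of difference. -/
def key (L : Lab N) : Lex (Lab N) := toLex fun z => L z.rev

theorem key_injective : Function.Injective (key (N := N)) := fun L L' h => by
  funext z
  have := congrFun (toLex.injective h) z.rev
  simpa using this

theorem key_lt {L L' : Lab N} (m : Fin N) (hm : L m < L' m) (hh : ∀ z, m < z → L z = L' z) :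
    key L < key L' :=
  ⟨m.rev, fun u hu => hh u.rev (Fin.lt_rev_iff.1 hu), by simpa [key] using hm⟩

/-- The polytabloid of a standard labelling has that labelling as its leading term. -/
theorem poly_lead {L M : Lab N} (hstd : Std L) (hν : Antitone (cnt L))
    (hM : poly L (rank L) M ≠ 0) (hne : M ≠ L) : key M < key L := by
  classical
  obtain ⟨c, hc, rfl⟩ := poly_eq_one_of M hM
  have hT := rank_isTableau hν
  have hcc := mem_colStab.1 hc
  obtain ⟨v, hv⟩ := Function.ne_iff.1 hne
  obtain ⟨m, hm, hmax⟩ := Finset.exists_max_image ({z | L (c z) ≠ L z} : Finset (Fin N)) id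
    ⟨v, by simpa using hv⟩
  simp only [Finset.mem_filter, Finset.mem_univ, true_and, id] at hm hmax
  have heq : ∀ z, m < z → L (c z) = L z := fun z hz => by
    by_contra h; exact absurd (hmax z h) (not_le.2 hz)
  have hfix : ∀ z, m < z → c z = z := fun z hz =>
    hT.1 (Prod.ext (heq z hz) (congrFun hcc z))
  refine key_lt m ?_ heq
  have hlt : c m < m := by
    rcases lt_trichotomy (c m) m with h | h | h
    · exact h
    · exact absurd (by rw [h]) hm
    · have := c.injective (hfix _ h)
      exact absurd this h.ne'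
  rcases lt_or_ge (L (c m)) (L m) with h | h
  · exact h
  · have h' : L m < L (c m) := lt_of_le_of_ne h (Ne.symm hm)
    exact absurd (hstd m (c m) (congrFun hcc m).symm h') (not_lt.2 hlt.le)

/-- The straightening step. -/
theorem straighten {L : Lab N} {y : Sp N}
    (hy : ∀ z ∈ Tsum (cnt L), pair y z = 0) (hmax : ∀ M, y M ≠ 0 → key M ≤ key L)
    {z0 w0 : Fin N} (hij : (L w0 : ℕ) = L z0 + 1) (hr : rank L z0 = rank L w0) (hlt : w0 < z0) :
    y L = 0 := by
  classical
  set i := L z0 with hi
  set j := L w0 with hj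
  have hne : i ≠ j := fun e => by rw [e] at hij; omega
  set F0 : Finset (Fin N) := {z | L z = i ∧ z < z0} with hF0
  set B0 : Finset (Fin N) := {z | L z = j ∧ w0 < z} with hB0
  let base : Finset (Fin N) → Lab N := fun J z =>
    if z ∈ J then j else if L z = j ∧ ¬ w0 < z then i else L z
  have hk : #B0 + #F0 + 1 = cnt L j := by
    have e1 : #F0 = #({z | L z = j ∧ z < w0} : Finset (Fin N)) := Fin.ext_iff.1 hr
    have hsplit : ({z | L z = j} : Finset (Fin N)) =
        B0 ∪ insert w0 ({z | L z = j ∧ z < w0} : Finset (Fin N)) := by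
      ext z
      simp only [hB0, Finset.mem_filter, Finset.mem_univ, true_and, Finset.mem_union,
        Finset.mem_insert]
      constructor
      · intro hz
        rcases lt_trichotomy z w0 with h | h | h
        · exact .inr (.inr ⟨hz, h⟩)
        · exact .inr (.inl h)
        · exact .inl ⟨hz, h⟩
      · rintro (⟨h, -⟩ | rfl | ⟨h, -⟩)
        · exact h
        · exact hj.symm
        · exact h
    rw [cnt, hsplit, Finset.card_union_of_disjoint, Finset.card_insert_of_notMem, e1]
    · omega
    · simp
    · rw [Finset.disjoint_left]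
      intro z hz hz'
      simp only [hB0, Finset.mem_filter, Finset.mem_univ, true_and] at hz
      simp only [Finset.mem_insert, Finset.mem_filter, Finset.mem_univ, true_and] at hz'
      rcases hz' with rfl | ⟨-, h⟩
      · exact lt_irrefl _ hz.2
      · exact lt_asymm h hz.2
  have hbase : ∀ J ⊆ F0, ∀ M, Moved i j (base J) M ↔
      Moved i j (base ∅) M ∧ ∀ z ∈ J, M z = j := by
    intro J hJ M
    have hJi : ∀ z ∈ J, L z = i ∧ base ∅ z = i ∧ base J z = j := fun z hz => by
      have := hJ hz
      simp only [hF0, Finset.mem_filter, Finset.mem_univ, true_and] at this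
      simp [base, hz, this.1, hne]
    constructor
    · intro h
      have hJ' : ∀ z ∈ J, M z = j := fun z hz => by
        rcases h z with e | ⟨e, -⟩
        · rw [e, (hJi z hz).2.2]
        · rw [(hJi z hz).2.2] at e; exact absurd e.symm hne
      refine ⟨fun z => ?_, hJ'⟩
      by_cases hz : z ∈ J
      · exact .inr ⟨(hJi z hz).2.1, hJ' z hz⟩
      · have : base J z = base ∅ z := by simp [base, hz]
        rw [← this]; exact h z
    · rintro ⟨h, hJ'⟩ z
      by_cases hz : z ∈ J
      · exact .inl (by rw [(hJi z hz).2.2, hJ' z hz])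
      · have : base J z = base ∅ z := by simp [base, hz]
        rw [this]; exact h z
  have hG : ∀ J ⊆ F0, ∑ M, (if cnt M = cnt L ∧ Moved i j (base J) M then y M else 0) = 0 := by
    intro J hJ
    have hJc : #J ≤ #F0 := Finset.card_le_card hJ
    have hjle : cnt L j ≤ N := (Finset.card_le_univ _).trans (by simp)
    have hJi : ∀ z ∈ J, L z = i := fun z hz => by
      have := hJ hz
      simp only [hF0, Finset.mem_filter, Finset.mem_univ, true_and] at this
      exact this.1
    refine perp_Tsum_eq hy (t := cnt L j - #B0 - #J) hij (by omega) (by omega) (by omega) ?_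
    have ej : cnt (base J) j = #B0 + #J := by
      have : ({z | base J z = j} : Finset (Fin N)) = B0 ∪ J := by
        ext z
        simp only [base, hB0, Finset.mem_filter, Finset.mem_univ, true_and, Finset.mem_union]
        by_cases hz : z ∈ J
        · simp [hz]
        · by_cases h1 : L z = j <;> by_cases h2 : w0 < z <;> simp [hz, h1, h2, hne]
      rw [cnt, this, Finset.card_union_of_disjoint]
      rw [Finset.disjoint_left]
      intro z hz hzJ
      simp only [hB0, Finset.mem_filter, Finset.mem_univ, true_and] at hz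
      exact hne ((hJi z hzJ).symm.trans hz.1)
    have eother : ∀ a, a ≠ i → a ≠ j → cnt (base J) a = cnt L a := by
      intro a ha hb
      unfold cnt
      congr 1
      ext z
      simp only [base, Finset.mem_filter, Finset.mem_univ, true_and]
      by_cases hz : z ∈ J
      · simp [hz, hJi z hz, Ne.symm ha, Ne.symm hb]
      · by_cases h1 : L z = j <;> by_cases h2 : w0 < z <;>
          simp [hz, h1, h2, Ne.symm ha, Ne.symm hb]
    have esum : cnt (base J) i + cnt (base J) j = cnt L i + cnt L j := by
      rw [← Finset.sum_pair hne, sum_cnt, ← Finset.sum_pair hne, sum_cnt]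
      congr 1
      ext z
      simp only [base, Finset.mem_filter, Finset.mem_univ, true_and, Finset.mem_insert,
        Finset.mem_singleton]
      by_cases hz : z ∈ J
      · simp [hz, hJi z hz]
      · by_cases h1 : L z = j <;> by_cases h2 : w0 < z <;> simp [hz, h1, h2]
    funext a
    rcases eq_or_ne a j with rfl | haj
    · simp [lam, ej]; omega
    rcases eq_or_ne a i with rfl | hai
    · rw [cnt_lam_fst hne]; omega
    · simp [lam, haj, hai, eother a hai haj]
  -- inclusion and exclusion over `F0`
  have hsum : ∑ M, (if cnt M = cnt L ∧ Moved i j (base ∅) M then y M else 0) *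
      ∏ z ∈ F0, (1 + if M z = j then (1 : F2) else 0) = 0 := by
    simp only [Finset.prod_one_add, Finset.mul_sum]
    rw [Finset.sum_comm]
    refine Finset.sum_eq_zero fun J hJ => ?_
    rw [Finset.mem_powerset] at hJ
    refine (Finset.sum_congr rfl fun M _ => ?_).trans (hG J hJ)
    rw [Finset.prod_boole]
    by_cases h : Moved i j (base J) M
    · obtain ⟨h1, h2⟩ := (hbase J hJ M).1 h
      simp [h, h1, if_pos h2]
    · rw [if_neg (c := cnt M = cnt L ∧ Moved i j (base J) M) fun h' => h h'.2]
      rcases em (∀ z ∈ J, M z = j) with h2 | h2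
      · rw [if_neg (c := cnt M = cnt L ∧ Moved i j (base ∅) M)
          fun h' => h ((hbase J hJ M).2 ⟨h'.2, h2⟩), zero_mul]
      · rw [if_neg h2, mul_zero]
  have hb0 : ∀ z, base ∅ z = if L z = j ∧ ¬ w0 < z then i else L z :=
    fun z => if_neg (Finset.notMem_empty z)
  rw [Finset.sum_eq_single L] at hsum
  · have h1 : Moved i j (base ∅) L := fun z => by
      by_cases h : L z = j ∧ ¬ w0 < z
      · exact .inr ⟨by rw [hb0, if_pos h], h.1⟩
      · exact .inl (by rw [hb0, if_neg h])
    have h2 : ∏ z ∈ F0, (1 + if L z = j then (1 : F2) else 0) = 1 :=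
      Finset.prod_eq_one fun z hz => by
        simp only [hF0, Finset.mem_filter, Finset.mem_univ, true_and] at hz
        simp [hz.1, hne]
    rw [h2, mul_one, if_pos ⟨rfl, h1⟩] at hsum
    exact hsum
  · intro M _ hML
    by_cases hc : cnt M = cnt L ∧ Moved i j (base ∅) M
    swap
    · rw [if_neg hc, zero_mul]
    by_cases hF : ∃ z ∈ F0, M z = j
    · obtain ⟨z, hz, hzj⟩ := hF
      rw [Finset.prod_eq_zero hz (by rw [if_pos hzj]; exact f2_two 1), mul_zero]
    push Not at hF
    obtain ⟨hcM, hmv⟩ := hc
    suffices key L < key M by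
      rw [if_pos ⟨hcM, hmv⟩]
      rw [show y M = 0 by by_contra h; exact absurd (hmax M h) (not_le.2 this), zero_mul]
    obtain ⟨v, hv⟩ := Function.ne_iff.1 hML
    obtain ⟨m, hm, hm'⟩ := Finset.exists_max_image ({z | M z ≠ L z} : Finset (Fin N)) id
      ⟨v, by simpa using hv⟩
    simp only [Finset.mem_filter, Finset.mem_univ, true_and, id] at hm hm'
    have heq : ∀ z, m < z → L z = M z := fun z hz => by
      by_contra h; exact absurd (hm' z (Ne.symm h)) (not_le.2 hz)
    have cases2 : ∀ z, M z ≠ L z → (L z = i ∧ M z = j) ∨ (L z = j ∧ M z = i ∧ z ≤ w0) := by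
      intro z hz
      by_cases hb : L z = j ∧ ¬ w0 < z
      · rcases hmv z with e | ⟨-, e⟩
        · exact .inr ⟨hb.1, by rwa [hb0, if_pos hb] at e, not_lt.1 hb.2⟩
        · exact absurd (e.trans hb.1.symm) hz
      · rcases hmv z with e | ⟨e', e⟩
        · exact absurd (by rwa [hb0, if_neg hb] at e) hz
        · exact .inl ⟨by rwa [hb0, if_neg hb] at e', e⟩
    refine key_lt m ?_ heq
    rcases cases2 m hm with ⟨h1, h2⟩ | ⟨h1, h2, h3⟩
    · rw [h1, h2]; exact Fin.lt_def.2 (by omega)
    · -- some larger place has to differ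
      exfalso
      obtain ⟨z, hz1, hz2⟩ : ∃ z, M z = j ∧ L z ≠ j := by
        by_contra hc'
        push Not at hc'
        have hss : ({z | M z = j} : Finset (Fin N)) ⊂ ({z | L z = j} : Finset (Fin N)) := by
          refine ⟨fun z hz => ?_, fun hs => ?_⟩
          · simp only [Finset.mem_filter, Finset.mem_univ, true_and] at hz ⊢
            exact hc' z hz
          · have := hs (x := m) (by simp [h1])
            simp [h2, hne] at this
        exact (Finset.card_lt_card hss).ne (congrFun hcM j)
      rcases cases2 z (by rw [hz1]; exact Ne.symm hz2) with ⟨hzi, -⟩ | ⟨hzj, -, -⟩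
      · have hzF : z ∉ F0 := fun h => hF z h hz1
        simp only [hF0, Finset.mem_filter, Finset.mem_univ, true_and, not_and, not_lt] at hzF
        have h4 : m < z := h3.trans_lt (hlt.trans_le (hzF hzi))
        exact hz2 ((heq z h4).trans hz1)
      · exact hz2 hzj
  · simp

/-- The polytabloids of a content. -/
def Polys (ν : Fin N → ℕ) : Set (Sp N) :=
  {e | ∃ row col, IsTableau row col ∧ cnt row = ν ∧ e = poly row col}

/-- The Specht module. -/
def Spe (ν : Fin N → ℕ) : Submodule F2 (Sp N) := Submodule.span F2 (Polys ν)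

/-- The kernel intersection theorem. -/
theorem mem_Spe_of_perp {ν : Fin N → ℕ} (hν : Antitone ν) {y : Sp N} (hM : y ∈ Msub ν)
    (hy : ∀ z ∈ Tsum ν, pair y z = 0) : y ∈ Spe ν := by
  classical
  generalize hn : #({M | ∃ L, y L ≠ 0 ∧ key M ≤ key L} : Finset (Lab N)) = n
  induction n using Nat.strong_induction_on generalizing y with
  | _ n ih =>
    by_cases h0 : y = 0
    · rw [h0]; exact zero_mem _
    obtain ⟨v, hv⟩ := Function.ne_iff.1 h0
    obtain ⟨L, hL, hmax⟩ := Finset.exists_max_image ({L | y L ≠ 0} : Finset (Lab N)) key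
      ⟨v, by simpa using hv⟩
    simp only [Finset.mem_filter, Finset.mem_univ, true_and] at hL hmax
    have hc : cnt L = ν := by by_contra h; exact hL (hM L h)
    subst hc
    by_cases hs : Std L
    swap
    · obtain ⟨z, w, h1, h2, h3⟩ := exists_violation hν hs
      exact absurd (straighten hy hmax h1 h2 h3) hL
    set e := poly L (rank L) with he
    have hT := rank_isTableau hν
    have heS : e ∈ Spe (cnt L) := Submodule.subset_span ⟨L, rank L, hT, rfl, rfl⟩
    have heL : e L = 1 := (poly_eq_one_iff L).2 ⟨1, mem_colStab.2 rfl, rfl⟩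
    have hsupp : ∀ M, (y + e) M ≠ 0 → key M < key L := fun M hM' => by
      rcases eq_or_ne M L with rfl | hne
      · rw [Pi.add_apply, f2_eq_one hL, heL] at hM'
        exact absurd (f2_two 1) hM'
      · by_cases h1 : y M = 0
        · rw [Pi.add_apply, h1, zero_add] at hM'
          exact poly_lead hs hν hM' hne
        · exact lt_of_le_of_ne (hmax M h1) fun e' => hne (key_injective e')
    have hdec : #({M | ∃ L', (y + e) L' ≠ 0 ∧ key M ≤ key L'} : Finset (Lab N)) < n := by
      rw [← hn]
      refine Finset.card_lt_card ⟨fun M hM' => ?_, fun hs' => ?_⟩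
      · simp only [Finset.mem_filter, Finset.mem_univ, true_and] at hM' ⊢
        obtain ⟨L', h1, h2⟩ := hM'
        exact ⟨L, hL, h2.trans (hsupp L' h1).le⟩
      · have := hs' (x := L) (by simp only [Finset.mem_filter, Finset.mem_univ, true_and]; exact ⟨L, hL, le_rfl⟩)
        simp only [Finset.mem_filter, Finset.mem_univ, true_and] at this
        obtain ⟨L', h1, h2⟩ := this
        exact absurd (hsupp L' h1) (not_lt.2 h2)
    have h := ih _ hdec (y := y + e) (add_mem hM (poly_mem L (rank L)))
      (fun z hz => by rw [pair_add_left, hy z hz, poly_perp_Tsum hT hν hz, add_zero]) rfl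
    have : y + e + e ∈ Spe (cnt L) := add_mem h heS
    have e2 : e + e = 0 := funext fun M => f2_two _
    rwa [add_assoc, e2, add_zero] at this

end Vale.Agent.P197
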