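import Mathlib.Data.Fin.Tuple.Sort
import Vale.Agent.P197.IdealStraight

/-!
# P197: a bistable space of functions pairing oddly with all Gram matrices is everything
-/

namespace Vale.Agent.P197

open Finset

variable {N : ℕ}

theorem cnt_le (L : Lab N) (a : Fin N) : cnt L a ≤ N := (Finset.card_le_univ _).trans (by simp)

/-- The measure of the induction. -/
def phi (ν : Fin N → ℕ) : ℕ := ∑ a, min (ν a) N * min (ν a) N

theorem phi_comp (ν : Fin N → ℕ) (σ : Equiv.Perm (Fin N)) : phi (ν ∘ σ) = phi ν :=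
  Equiv.sum_comp σ fun a => min (ν a) N * min (ν a) N

theorem phi_le (ν : Fin N → ℕ) : phi ν ≤ N * N * N := by
  refine (Finset.sum_le_sum fun a _ => Nat.mul_le_mul (min_le_right (ν a) N)
    (min_le_right (ν a) N)).trans ?_
  simp [mul_assoc]

theorem phi_lam_lt {ν : Fin N → ℕ} {i j : Fin N} {t : ℕ} (hne : i ≠ j) (ht : 1 ≤ t)
    (htj : t ≤ ν j) (hle : ν j ≤ ν i) (hN : ν i + t ≤ N) :
    phi ν < phi (lam ν i j t) := by
  have hsplit : ∀ F : Fin N → ℕ, ∑ a, F a = F i + F j + ∑ a ∈ Finset.univ \ {i, j}, F a := by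
    intro F
    rw [← Finset.sum_sdiff (Finset.subset_univ ({i, j} : Finset (Fin N))), Finset.sum_pair hne]
    ring
  unfold phi
  rw [hsplit, hsplit]
  have hrest : ∑ a ∈ Finset.univ \ {i, j}, min (lam ν i j t a) N * min (lam ν i j t a) N =
      ∑ a ∈ Finset.univ \ {i, j}, min (ν a) N * min (ν a) N :=
    Finset.sum_congr rfl fun a ha => by
      simp only [Finset.mem_sdiff, Finset.mem_univ, true_and, Finset.mem_insert,
        Finset.mem_singleton, not_or] at ha
      simp [lam, ha.1, ha.2]
  rw [hrest, cnt_lam_fst hne, show lam ν i j t j = ν j - t by simp [lam],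
    min_eq_left (by omega : ν i ≤ N), min_eq_left (by omega : ν j ≤ N),
    min_eq_left hN, min_eq_left (by omega : ν j - t ≤ N)]
  obtain ⟨u, hu⟩ : ∃ u, ν j = u + t := ⟨ν j - t, by omega⟩
  rw [hu, Nat.add_sub_cancel]
  nlinarith [Nat.mul_le_mul_left t (hu ▸ hle), Nat.mul_le_mul ht ht]

variable {W : Submodule (ZMod 2) (Equiv.Perm (Fin N) → ZMod 2)}

/-- The vectors reached from `x`. -/
noncomputable def reach (W : Submodule F2 (GF N)) (x : Sp N) : Submodule F2 (Sp N) :=
  W.map (opA.flip x)

theorem mem_reach {x y : Sp N} : y ∈ reach W x ↔ ∃ f ∈ W, opA f x = y := Iff.rfl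

theorem inv_reach (hW : Bistable W) (x : Sp N) : Inv (reach W x) := by
  rintro h y hy
  obtain ⟨f, hf, rfl⟩ := mem_reach.1 hy
  exact mem_reach.2 ⟨_, hW.left hf h⁻¹, (tr_opA f h x).symm⟩

theorem opA_tr_mem_reach (hW : Bistable W) {f : GF N} (hf : f ∈ W) (g : Equiv.Perm (Fin N))
    (x : Sp N) : opA f (tr g x) ∈ reach W x :=
  mem_reach.2 ⟨_, hW.right hf g⁻¹, (opA_tr f g x).symm⟩

theorem card_row (row : Lab N) (a : Fin N) : Nat.card {z // row z = a} = cnt row a := by
  rw [Nat.card_eq_fintype_card, Fintype.card_subtype]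
  rfl

theorem gram_eq_pair (row col : Lab N) (g : Equiv.Perm (Fin N)) :
    gram row col g = pair (tr g (poly row col)) (poly row col) :=
  Finset.sum_congr rfl fun _ _ => mul_comm _ _

theorem pair_opA_poly (row col : Lab N) (f : GF N) :
    pair (opA f (poly row col)) (poly row col) = ∑ g, f g * gram row col g := by
  simp only [opA_apply, pair_sum_left, pair_smul_left, gram_eq_pair]

/-- Local units on the Specht module. -/
theorem good_Spe (hW : Bistable W)
    (hodd : ∀ row col : Fin N → Fin N, IsTableau row col → IsStrict row →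
      ∃ f ∈ W, ∑ g, f g * gram row col g ≠ 0)
    {ν : Fin N → ℕ} (hν : Antitone ν) (hT : Good W (Tsum ν)) {x : Sp N} (hx : x ∈ Spe ν) :
    x ∈ reach W x := by
  classical
  have hSM : Spe ν ≤ Msub ν := by
    refine Submodule.span_le.2 ?_
    rintro _ ⟨r, c, -, rfl, rfl⟩
    exact poly_mem r c
  by_cases hpe : ∃ e ∈ Polys ν, pair x e ≠ 0
  swap
  · push Not at hpe
    have hxT : x ∈ Tsum ν := by
      by_contra hn
      obtain ⟨y, hy, hyx⟩ := exists_pair_ne_zero hn
      have hS : cut ν y ∈ Spe ν := mem_Spe_of_perp hν (cut_mem ν y) fun z hz => by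
        rw [pair_cut y (Tsum_le ν hz)]; exact hy z hz
      have hzero : ∀ w ∈ Spe ν, pair x w = 0 := fun w hw => by
        induction hw using Submodule.span_induction with
        | mem w hw => exact hpe w hw
        | zero => simp [pair]
        | add a b _ _ ha hb => rw [pair_add_right, ha, hb, add_zero]
        | smul c a _ ha => rw [pair_smul_right, ha, mul_zero]
      exact hyx (by rw [← pair_cut y (hSM hx), pair_comm, hzero _ hS])
    obtain ⟨f, hf, he⟩ := hT x hxT
    exact mem_reach.2 ⟨f, hf, he⟩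
  obtain ⟨_, ⟨row, col, hrc, rfl, rfl⟩, hxe⟩ := hpe
  have hstrict : IsStrict row := by
    intro a b hab hlen
    simp only [card_row] at hlen
    have hzero : ∀ w ∈ Spe (cnt row), pair w (poly row col) = 0 := fun w hw => by
      induction hw using Submodule.span_induction with
      | mem w hw =>
        obtain ⟨r', c', h', hcnt, rfl⟩ := hw
        rw [pair_comm]
        exact pair_poly_poly_zero hrc h' hcnt hab hlen (Finset.card_pos.2 ⟨a, by simp⟩)
      | zero => simp [pair]
      | add u v _ _ hu hv => rw [pair_add_left, hu, hv, add_zero]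
      | smul c u _ hu => rw [pair_smul_left, hu, mul_zero]
    exact hxe (hzero x hx)
  obtain ⟨f, hf, hfo⟩ := hodd row col hrc hstrict
  set e := poly row col with he
  have hex : ∑ c ∈ colStab col, tr c x = e := by
    rw [sum_colStab_tr hrc (hSM hx), f2_eq_one hxe, one_smul]
  have h1 : opA f e ∈ reach W x := by
    rw [← hex, map_sum]
    exact sum_mem fun c _ => opA_tr_mem_reach hW hf c x
  have h2 : pair (opA f e) e = 1 := by
    apply f2_eq_one
    rw [he, pair_opA_poly]
    exact hfo
  have he' : e ∈ reach W x := by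
    have h3 := sum_colStab_tr hrc (x := opA f e) ((inv_Msub _).opA_mem f (poly_mem row col))
    rw [h2, one_smul] at h3
    rw [he, ← h3]
    exact sum_mem fun c _ => inv_reach hW x c _ h1
  refine (Submodule.span_le.2 ?_ : Spe (cnt row) ≤ reach W x) hx
  rintro _ ⟨r', c', h', hcnt, rfl⟩
  obtain ⟨g, hg⟩ := exists_tr_poly hrc h' hcnt
  rw [hg]
  exact inv_reach hW x g _ he'

/-- Local units on all permutation modules. -/
theorem good_Msub (hW : Bistable W) (hinv : ∀ f ∈ W, (fun g => f g⁻¹) ∈ W)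
    (hodd : ∀ row col : Fin N → Fin N, IsTableau row col → IsStrict row →
      ∃ f ∈ W, ∑ g, f g * gram row col g ≠ 0)
    (ν : Fin N → ℕ) : Good W (Msub ν) := by
  classical
  generalize hn : N * N * N - phi ν = n
  induction n using Nat.strong_induction_on generalizing ν with
  | _ n ih =>
    by_cases hex : ∃ L : Lab N, cnt L = ν
    swap
    · intro x hx
      have : x = 0 := funext fun L => hx L fun h => hex ⟨L, h⟩
      exact ⟨0, W.zero_mem, by simp [this]⟩
    obtain ⟨L0, hL0⟩ := hex
    let σ : Equiv.Perm (Fin N) := Fin.revPerm.trans (Tuple.sort ν)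
    have hanti : Antitone (ν ∘ σ) := fun a b hab =>
      Tuple.monotone_sort ν (Fin.rev_le_rev.2 hab)
    refine good_relabel σ ?_
    have hn' : N * N * N - phi (ν ∘ σ) = n := by rw [phi_comp, hn]
    have hμle : ∀ s : Finset (Fin N), ∑ a ∈ s, (ν ∘ σ) a ≤ N := fun s => by
      calc ∑ a ∈ s, (ν ∘ σ) a ≤ ∑ a, (ν ∘ σ) a :=
            Finset.sum_le_sum_of_subset (Finset.subset_univ s)
        _ = ∑ a, cnt L0 a := by rw [hL0]; exact Equiv.sum_comp σ ν
        _ ≤ N := by rw [sum_cnt]; exact (Finset.card_le_univ _).trans (by simp)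
    generalize ν ∘ σ = μ at hanti hn' hμle ⊢
    -- the images from larger contents
    have hT : Good W (Tsum μ) := by
      have : Good W (Tsum μ) ∧ Inv (Tsum μ) := by
        refine Finset.sup_induction (p := fun P => Good W P ∧ Inv P)
          ⟨good_bot, fun g x hx => by rw [Submodule.mem_bot] at hx ⊢; rw [hx, map_zero]⟩
          (fun P hP Q hQ => ⟨hP.1.sup hW hQ.1 hQ.2, hP.2.sup hQ.2⟩) ?_
        rintro ⟨i, j, t⟩ hp
        refine ⟨Good.map ?_ _ (theta_tr μ i j t), (inv_Msub _).map _ (theta_tr μ i j t)⟩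
        simp only [steps, Finset.mem_filter, Finset.mem_univ, true_and] at hp
        obtain ⟨hij, ht, htj⟩ := hp
        have hne : i ≠ j := fun e => by rw [e] at hij; omega
        have hle : μ j ≤ μ i := hanti (Fin.le_def.2 (by omega))
        have hN : μ i + μ j ≤ N := by rw [← Finset.sum_pair hne]; exact hμle _
        have hlt := phi_lam_lt (ν := μ) hne ht htj hle (by omega)
        have := phi_le (lam μ i j t)
        exact ih (N * N * N - phi (lam μ i j t)) (by omega) (lam μ i j t) rfl
      exact this.1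
    -- lifting the units
    intro x hx
    have hZ : x ∈ reach W x ⊔ Tsum μ := by
      by_contra hnot
      obtain ⟨y, hy, hyx⟩ := exists_pair_ne_zero hnot
      have hS : cut μ y ∈ Spe μ := mem_Spe_of_perp hanti (cut_mem μ y) fun z hz => by
        rw [pair_cut y (Tsum_le μ hz)]; exact hy z (Submodule.mem_sup_right hz)
      obtain ⟨f, hf, he⟩ := mem_reach.1 (good_Spe hW hodd hanti hT hS)
      apply hyx
      rw [← pair_cut y hx, ← he, pair_opA, pair_cut y ((inv_Msub μ).opA_mem _ hx)]
      exact hy _ (Submodule.mem_sup_left (mem_reach.2 ⟨_, hinv f hf, rfl⟩))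
    obtain ⟨a, ha, b, hb, hab⟩ := Submodule.mem_sup.1 hZ
    obtain ⟨f, hf, rfl⟩ := mem_reach.1 ha
    obtain ⟨f', hf', hfb⟩ := hT b hb
    obtain ⟨h, hh, hh'⟩ := hW.combine hf hf'
    refine ⟨h, hh, ?_⟩
    rw [hh', add_sub_assoc, ← map_sub, show x - opA f x = b from sub_eq_iff_eq_add'.2 hab.symm,
      hfb, hab]

theorem eq_top_of_gram (W : Submodule (ZMod 2) (Equiv.Perm (Fin N) → ZMod 2))
    (htr : ∀ f ∈ W, ∀ a b : Equiv.Perm (Fin N), (fun g => f (a * g * b)) ∈ W)
    (hinv : ∀ f ∈ W, (fun g => f g⁻¹) ∈ W)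
    (hodd : ∀ row col : Fin N → Fin N, IsTableau row col → IsStrict row →
      ∃ f ∈ W, ∑ g, f g * gram row col g ≠ 0) :
    W = ⊤ := by
  classical
  by_contra hW
  obtain ⟨f0, -, hf0⟩ := SetLike.exists_of_lt (lt_top_iff_ne_top.2 hW)
  obtain ⟨φ, hφf, hφ⟩ := Submodule.exists_dual_map_eq_bot_of_notMem hf0 inferInstance
  let a : GF N := fun g => φ (Pi.single g 1)
  have key : ∀ f : GF N, ∑ g, f g * a g = φ f := fun f => by
    conv_rhs => rw [← Finset.univ_sum_single f]
    rw [map_sum]
    refine Finset.sum_congr rfl fun g _ => ?_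
    rw [show Pi.single g (f g) = f g • (Pi.single g (1 : F2) : GF N) by
      rw [← Pi.single_smul, smul_eq_mul, mul_one], map_smul, smul_eq_mul]
  let x : Sp N := fun L => ∑ h : Equiv.Perm (Fin N), if ⇑h = L then a h else 0
  have hperm : ∀ h : Equiv.Perm (Fin N), x ⇑h = a h := fun h => by
    simp [x]
  have hx : x ∈ Msub fun _ => 1 := fun L hL => by
    refine Finset.sum_eq_zero fun h _ => if_neg fun e => hL ?_
    funext c
    rw [← e, cnt]
    rw [Finset.card_eq_one]
    exact ⟨h.symm c, by ext z; simp [Equiv.eq_symm_apply]⟩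
  obtain ⟨f, hf, he⟩ := good_Msub htr hinv hodd (fun _ => 1) x hx
  have hzero : ∀ h, a h = 0 := fun h => by
    rw [← hperm, ← he, opA_apply_apply]
    have hf' : (fun g => f (h⁻¹ * g)) ∈ W := Bistable.left htr hf h⁻¹
    have : φ (fun g => f (h⁻¹ * g)) = 0 := by
      have hm := Submodule.mem_map_of_mem (f := φ) hf'
      rwa [hφ, Submodule.mem_bot] at hm
    rw [← this, ← key]
    refine Fintype.sum_equiv (Equiv.mulLeft h) _ _ fun g => ?_
    rw [← Equiv.Perm.coe_mul, hperm]
    simp
  exact hφf (by rw [← key]; simp [hzero])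

end Vale.Agent.P197
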