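import Mathlib.Algebra.Module.LinearMap.Defs
import Mathlib.Data.Fintype.BigOperators
import Mathlib.Data.Fintype.Pi
import Mathlib.Data.Fintype.Perm
import Mathlib.Data.ZMod.Basic
import Mathlib.Algebra.Field.ZMod
import Mathlib.Data.Fintype.Prod
import Mathlib.LinearAlgebra.Pi
import Mathlib.LinearAlgebra.Dual.Lemmas

/-!
# P197: operators on labellings, permutation modules, locally unital subspaces
-/

namespace Vale.Agent.P197

open Finset

/-- The field with two elements. -/
abbrev F2 := ZMod 2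

variable {N : ℕ}

/-- Labellings. -/
abbrev Lab (N : ℕ) := Fin N → Fin N

/-- Functions of labellings. -/
abbrev Sp (N : ℕ) := Lab N → F2

/-- Functions on the group. -/
abbrev GF (N : ℕ) := Equiv.Perm (Fin N) → F2

theorem f2_eq_one {a : F2} (h : a ≠ 0) : a = 1 := by
  revert a; decide

theorem f2_two (a : F2) : a + a = 0 := by
  revert a; decide

/-- Translation of functions of labellings. -/
def tr (g : Equiv.Perm (Fin N)) : Sp N →ₗ[F2] Sp N where
  toFun x L := x (L ∘ g)
  map_add' _ _ := rfl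
  map_smul' _ _ := rfl

theorem tr_apply (g : Equiv.Perm (Fin N)) (x : Sp N) (L : Lab N) : tr g x L = x (L ∘ g) := rfl

theorem tr_tr (g h : Equiv.Perm (Fin N)) (x : Sp N) : tr g (tr h x) = tr (g * h) x := rfl

theorem tr_one (x : Sp N) : tr 1 x = x := rfl

/-- The operator of a function on the group. -/
noncomputable def opA : GF N →ₗ[F2] Sp N →ₗ[F2] Sp N :=
  ∑ g, (LinearMap.proj g : GF N →ₗ[F2] F2).smulRight (tr g)

theorem opA_apply (f : GF N) (x : Sp N) : opA f x = ∑ g, f g • tr g x := by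
  simp [opA, LinearMap.sum_apply]

theorem opA_apply_apply (f : GF N) (x : Sp N) (L : Lab N) :
    opA f x L = ∑ g, f g * x (L ∘ g) := by
  simp [opA_apply, Finset.sum_apply, tr_apply]

theorem opA_tr (f : GF N) (h : Equiv.Perm (Fin N)) (x : Sp N) :
    opA f (tr h x) = opA (fun g => f (g * h⁻¹)) x := by
  simp only [opA_apply, tr_tr]
  exact Fintype.sum_equiv (Equiv.mulRight h) _ _ fun g => by simp

theorem tr_opA (f : GF N) (h : Equiv.Perm (Fin N)) (x : Sp N) :
    tr h (opA f x) = opA (fun g => f (h⁻¹ * g)) x := by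
  simp only [opA_apply, map_sum, map_smul, tr_tr]
  exact Fintype.sum_equiv (Equiv.mulLeft h) _ _ fun g => by simp

/-- The standard form. -/
def pair (x y : Sp N) : F2 := ∑ L, x L * y L

theorem pair_comm (x y : Sp N) : pair x y = pair y x := by
  simp [pair, mul_comm]

theorem pair_add_left (x x' y : Sp N) : pair (x + x') y = pair x y + pair x' y := by
  simp [pair, add_mul, Finset.sum_add_distrib]

theorem pair_add_right (x y y' : Sp N) : pair x (y + y') = pair x y + pair x y' := by
  simp [pair, mul_add, Finset.sum_add_distrib]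

theorem pair_sum_left {ι : Type*} (s : Finset ι) (x : ι → Sp N) (y : Sp N) :
    pair (∑ i ∈ s, x i) y = ∑ i ∈ s, pair (x i) y := by
  simp only [pair, Finset.sum_apply, Finset.sum_mul]
  exact Finset.sum_comm

theorem pair_sum_right {ι : Type*} (s : Finset ι) (x : Sp N) (y : ι → Sp N) :
    pair x (∑ i ∈ s, y i) = ∑ i ∈ s, pair x (y i) := by
  simp only [pair, Finset.sum_apply, Finset.mul_sum]
  exact Finset.sum_comm

theorem pair_smul_left (c : F2) (x y : Sp N) : pair (c • x) y = c * pair x y := by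
  simp [pair, Finset.mul_sum, mul_assoc]

theorem pair_smul_right (c : F2) (x y : Sp N) : pair x (c • y) = c * pair x y := by
  rw [pair_comm, pair_smul_left, pair_comm]

theorem pair_tr (g : Equiv.Perm (Fin N)) (x y : Sp N) : pair (tr g x) y = pair x (tr g⁻¹ y) := by
  simp only [pair, tr_apply]
  refine Fintype.sum_bijective (fun L : Lab N => L ∘ g) ?_ _ _ fun L => ?_
  · exact (Equiv.arrowCongr g.symm (Equiv.refl (Fin N))).bijective
  · congr 2
    ext z
    simp

theorem pair_opA (f : GF N) (x y : Sp N) :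
    pair (opA f x) y = pair x (opA (fun g => f g⁻¹) y) := by
  simp only [opA_apply, pair_sum_left, pair_sum_right, pair_smul_left, pair_smul_right, pair_tr]
  exact Fintype.sum_equiv (Equiv.inv _) _ _ fun g => by simp

/-- A vector outside a subspace is detected by the form. -/
theorem exists_pair_ne_zero {p : Submodule F2 (Sp N)} {x : Sp N} (hx : x ∉ p) :
    ∃ y, (∀ z ∈ p, pair y z = 0) ∧ pair y x ≠ 0 := by
  classical
  obtain ⟨φ, hφx, hφ⟩ := Submodule.exists_dual_map_eq_bot_of_notMem hx inferInstance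
  have key : ∀ z : Sp N, pair (fun L => φ (Pi.single L 1)) z = φ z := fun z => by
    conv_rhs => rw [← Finset.univ_sum_single z]
    rw [map_sum]
    refine Finset.sum_congr rfl fun L _ => ?_
    rw [show Pi.single L (z L) = z L • (Pi.single L (1 : F2) : Sp N) by
      rw [← Pi.single_smul, smul_eq_mul, mul_one], map_smul, smul_eq_mul, mul_comm]
  refine ⟨_, fun z hz => ?_, by rwa [key]⟩
  rw [key]
  have : φ z ∈ p.map φ := Submodule.mem_map_of_mem hz
  rwa [hφ, Submodule.mem_bot] at this

/-- The content of a labelling. -/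
def cnt (L : Lab N) (a : Fin N) : ℕ := #{z | L z = a}

theorem cnt_comp (L : Lab N) (g : Equiv.Perm (Fin N)) : cnt (L ∘ g) = cnt L := by
  funext a
  refine Finset.card_bijective g g.bijective fun z => ?_
  simp

theorem sum_cnt (L : Lab N) (s : Finset (Fin N)) : ∑ a ∈ s, cnt L a = #{z | L z ∈ s} := by
  rw [Finset.card_eq_sum_card_fiberwise (f := L) (t := s) fun z hz => by simpa using hz]
  refine Finset.sum_congr rfl fun a ha => ?_
  rw [cnt]
  congr 1
  ext z
  simp +contextual [ha]

/-- The permutation module of a content. -/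
def Msub (ν : Fin N → ℕ) : Submodule F2 (Sp N) where
  carrier := {x | ∀ L, cnt L ≠ ν → x L = 0}
  zero_mem' := fun _ _ => rfl
  add_mem' := fun hx hy L hL => by simp [hx L hL, hy L hL]
  smul_mem' := fun c x hx L hL => by simp [hx L hL]

theorem mem_Msub {ν : Fin N → ℕ} {x : Sp N} : x ∈ Msub ν ↔ ∀ L, cnt L ≠ ν → x L = 0 := Iff.rfl

/-- The restriction to a content. -/
def cut (ν : Fin N → ℕ) (y : Sp N) : Sp N := fun L => if cnt L = ν then y L else 0

theorem cut_mem (ν : Fin N → ℕ) (y : Sp N) : cut ν y ∈ Msub ν := fun L hL => by simp [cut, hL]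

theorem pair_cut {ν : Fin N → ℕ} (y : Sp N) {x : Sp N} (hx : x ∈ Msub ν) :
    pair (cut ν y) x = pair y x := by
  refine Finset.sum_congr rfl fun L _ => ?_
  by_cases h : cnt L = ν <;> simp [cut, h, hx L]

/-- Subspaces stable under all operators. -/
def Inv (P : Submodule F2 (Sp N)) : Prop := ∀ g, ∀ x ∈ P, tr g x ∈ P

theorem Inv.opA_mem {P : Submodule F2 (Sp N)} (h : Inv P) (f : GF N) {x : Sp N} (hx : x ∈ P) :
    opA f x ∈ P := by
  rw [opA_apply]
  exact sum_mem fun g _ => P.smul_mem _ (h g x hx)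

theorem inv_Msub (ν : Fin N → ℕ) : Inv (Msub ν) := fun g x hx L hL =>
  hx _ (by rwa [cnt_comp])

theorem Inv.sup {P Q : Submodule F2 (Sp N)} (hP : Inv P) (hQ : Inv Q) : Inv (P ⊔ Q) := by
  intro g x hx
  obtain ⟨a, ha, b, hb, rfl⟩ := Submodule.mem_sup.1 hx
  rw [map_add]
  exact Submodule.add_mem_sup (hP g a ha) (hQ g b hb)

variable {W : Submodule F2 (GF N)}

/-- Left and right translation stability. -/
def Bistable (W : Submodule F2 (GF N)) : Prop :=
  ∀ f ∈ W, ∀ a b : Equiv.Perm (Fin N), (fun g => f (a * g * b)) ∈ W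

theorem Bistable.left (hW : Bistable W) {f : GF N} (hf : f ∈ W) (a : Equiv.Perm (Fin N)) :
    (fun g => f (a * g)) ∈ W := by simpa using hW f hf a 1

theorem Bistable.right (hW : Bistable W) {f : GF N} (hf : f ∈ W) (b : Equiv.Perm (Fin N)) :
    (fun g => f (g * b)) ∈ W := by simpa using hW f hf 1 b

theorem Bistable.opA_opA (hW : Bistable W) {f : GF N} (hf : f ∈ W) (f' : GF N) :
    ∃ h ∈ W, ∀ x, opA f' (opA f x) = opA h x := by
  refine ⟨∑ g, f' g • fun u => f (g⁻¹ * u), sum_mem fun g _ => W.smul_mem _ (hW.left hf _),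
    fun x => ?_⟩
  rw [opA_apply f', map_sum, LinearMap.sum_apply]
  exact Finset.sum_congr rfl fun g _ => by rw [map_smul, LinearMap.smul_apply, tr_opA]

/-- A subspace on which `W` has local units. -/
def Good (W : Submodule F2 (GF N)) (P : Submodule F2 (Sp N)) : Prop :=
  ∀ x ∈ P, ∃ f ∈ W, opA f x = x

theorem good_bot : Good W ⊥ := fun x hx => ⟨0, W.zero_mem, by
  rw [Submodule.mem_bot] at hx; simp [hx]⟩

/-- Local units for two vectors. -/
theorem Bistable.combine (hW : Bistable W) {f f' : GF N} (hf : f ∈ W) (hf' : f' ∈ W) :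
    ∃ h ∈ W, ∀ x, opA h x = opA f x + opA f' x - opA f' (opA f x) := by
  obtain ⟨e, he, he'⟩ := hW.opA_opA hf f'
  exact ⟨f + f' - e, sub_mem (add_mem hf hf') he, fun x => by simp [he']⟩

theorem Good.sup (hW : Bistable W) {P Q : Submodule F2 (Sp N)} (hP : Good W P) (hQ : Good W Q)
    (hinv : Inv Q) : Good W (P ⊔ Q) := by
  intro x hx
  obtain ⟨a, ha, b, hb, rfl⟩ := Submodule.mem_sup.1 hx
  obtain ⟨f, hf, hfa⟩ := hP a ha
  obtain ⟨f', hf', hfb⟩ := hQ (b - opA f b) (sub_mem hb (hinv.opA_mem f hb))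
  obtain ⟨h, hh, hh'⟩ := hW.combine hf hf'
  refine ⟨h, hh, ?_⟩
  rw [map_sub] at hfb
  rw [map_add, hh', hh', hfa]
  calc a + opA f' a - opA f' a + (opA f b + opA f' b - opA f' (opA f b))
      = a + (opA f b + (opA f' b - opA f' (opA f b))) := by abel
    _ = a + b := by rw [hfb]; abel

/-- Local units pass to the image of an equivariant map. -/
theorem Good.map {P : Submodule F2 (Sp N)} (h : Good W P) (θ : Sp N →ₗ[F2] Sp N)
    (hθ : ∀ g x, θ (tr g x) = tr g (θ x)) : Good W (P.map θ) := by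
  rintro _ ⟨x, hx, rfl⟩
  obtain ⟨f, hf, he⟩ := h x hx
  refine ⟨f, hf, ?_⟩
  conv_rhs => rw [← he]
  simp [opA_apply, hθ, map_sum]

theorem Inv.map {P : Submodule F2 (Sp N)} (h : Inv P) (θ : Sp N →ₗ[F2] Sp N)
    (hθ : ∀ g x, θ (tr g x) = tr g (θ x)) : Inv (P.map θ) := by
  rintro g _ ⟨x, hx, rfl⟩
  exact ⟨tr g x, h g x hx, hθ g x⟩

/-- Relabelling preserves the existence of local units. -/
theorem good_relabel {ν : Fin N → ℕ} (σ : Equiv.Perm (Fin N)) (h : Good W (Msub (ν ∘ σ))) :
    Good W (Msub ν) := by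
  intro x hx
  have hc : ∀ L : Lab N, cnt (σ ∘ L) = cnt L ∘ σ.symm := fun L => by
    funext a
    simp only [cnt, Function.comp_apply]
    congr 1
    ext z
    simp [Equiv.eq_symm_apply]
  obtain ⟨f, hf, he⟩ := h (fun L => x (σ ∘ L)) fun L hL => hx _ fun e => hL (by
    rw [hc] at e
    rw [← e]
    funext a
    simp)
  refine ⟨f, hf, funext fun L => ?_⟩
  have := congrFun he (σ.symm ∘ L)
  rw [opA_apply_apply] at this ⊢
  simpa [← Function.comp_assoc] using this

end Vale.Agent.P197
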