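import Mathlib.Analysis.Complex.Basic
import Mathlib.GroupTheory.Perm.Sign
import Mathlib.LinearAlgebra.FiniteDimensional.Basic
import Mathlib.LinearAlgebra.Matrix.Determinant.Basic
import Mathlib.LinearAlgebra.Matrix.ToLinearEquiv
import Mathlib.RepresentationTheory.Intertwining
import Mathlib.RepresentationTheory.Irreducible
import Vale.Agent.P197.Ideal

/-!
# P197: lifting to the complex numbers

The complex Specht module of a shape and the conclusion: if the products of two coefficient
functions pair oddly with every Gram matrix of a strict shape, then every nonzero representation of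
the symmetric group has a nonzero intertwining map into the tensor square of the Specht module.
-/

namespace Vale.Agent.P197

open Finset
open scoped TensorProduct

variable {N : ℕ}

/-- Complex functions of labellings. -/
abbrev SpC (N : ℕ) := Lab N → ℂ

/-- The permutation representation on functions of labellings. -/
def permRep (N : ℕ) : Representation ℂ (Equiv.Perm (Fin N)) (SpC N) where
  toFun g :=
    { toFun := fun x L => x (L ∘ g)
      map_add' := fun _ _ => rfl
      map_smul' := fun _ _ => rfl }
  map_one' := rfl
  map_mul' _ _ := rfl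

theorem permRep_apply (g : Equiv.Perm (Fin N)) (x : SpC N) (L : Lab N) :
    permRep N g x L = x (L ∘ g) := rfl

/-- The signed polytabloid, with integral values. -/
noncomputable def polyZ (row col : Lab N) (L : Lab N) : ℤ :=
  ∑ c ∈ colStab col, if row ∘ ⇑c = L then ((Equiv.Perm.sign c : ℤˣ) : ℤ) else 0

/-- The signed polytabloid. -/
noncomputable def polyC (row col : Lab N) : SpC N := fun L => (polyZ row col L : ℂ)

/-- The complex Specht module: the span of the translates of the polytabloid. -/
noncomputable def spechtC (row col : Lab N) : Submodule ℂ (SpC N) :=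
  Submodule.span ℂ (Set.range fun g => permRep N g (polyC row col))

theorem spechtC_stable (row col : Lab N) (g : Equiv.Perm (Fin N)) {x : SpC N}
    (hx : x ∈ spechtC row col) : permRep N g x ∈ spechtC row col := by
  induction hx using Submodule.span_induction with
  | mem x hx =>
    obtain ⟨h, rfl⟩ := hx
    exact Submodule.subset_span ⟨g * h, rfl⟩
  | zero => rw [map_zero]; exact zero_mem _
  | add x y _ _ hx hy => rw [map_add]; exact add_mem hx hy
  | smul c x _ hx => rw [map_smul]; exact Submodule.smul_mem _ c hx

/-- The Specht representation. -/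
noncomputable def spechtRep (row col : Lab N) :
    Representation ℂ (Equiv.Perm (Fin N)) (spechtC row col) where
  toFun g := (permRep N g).restrict fun _ hx => spechtC_stable row col g hx
  map_one' := LinearMap.ext fun _ => rfl
  map_mul' _ _ := LinearMap.ext fun _ => rfl

/-- The integral coefficient function of the polytabloid. -/
noncomputable def gramZ (row col : Lab N) (g : Equiv.Perm (Fin N)) : ℤ :=
  ∑ L : Lab N, polyZ row col L * polyZ row col (L ∘ g)

theorem cast_polyZ {row col : Lab N} (h : IsTableau row col) (L : Lab N) :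
    (polyZ row col L : F2) = poly row col L := by
  classical
  have e : poly row col L = pair (Pi.single L 1) (poly row col) := by
    rw [pair, Finset.sum_eq_single L (fun M _ hM => by simp [hM]) (by simp)]
    simp
  rw [e, pair_poly h, polyZ, Int.cast_sum]
  refine Finset.sum_congr rfl fun c _ => ?_
  by_cases hc : row ∘ ⇑c = L
  · rw [if_pos hc, hc, Pi.single_eq_same]
    rcases Int.units_eq_one_or (Equiv.Perm.sign c) with hs | hs <;> rw [hs] <;> decide
  · rw [if_neg hc, Pi.single_eq_of_ne hc, Int.cast_zero]

theorem cast_gramZ {row col : Lab N} (h : IsTableau row col) (g : Equiv.Perm (Fin N)) :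
    (gramZ row col g : F2) = gram row col g := by
  simp [gramZ, gram, Int.cast_sum, Int.cast_mul, cast_polyZ h]

theorem gram_inv (row col : Lab N) (g : Equiv.Perm (Fin N)) :
    gram row col g⁻¹ = gram row col g := by
  rw [gram_eq_pair, gram_eq_pair, pair_tr, pair_comm, inv_inv]

/-- The functional of `a` on the Specht module. -/
noncomputable def coefC (row col : Lab N) (a : Equiv.Perm (Fin N)) : spechtC row col →ₗ[ℂ] ℂ :=
  (∑ L : Lab N, (polyC row col (L ∘ ⇑a⁻¹)) • (LinearMap.proj L : SpC N →ₗ[ℂ] ℂ)).comp
    (spechtC row col).subtype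

theorem coefC_apply (row col : Lab N) (a g b : Equiv.Perm (Fin N))
    (e : spechtC row col) (he : (e : SpC N) = permRep N b (polyC row col)) :
    coefC row col a (spechtRep row col g e) = (gramZ row col (a * g * b) : ℂ) := by
  have h1 : ((spechtRep row col g e : spechtC row col) : SpC N) =
      permRep N g (permRep N b (polyC row col)) := by
    rw [← he]; rfl
  simp only [coefC, LinearMap.comp_apply, Submodule.subtype_apply, LinearMap.sum_apply,
    LinearMap.smul_apply, LinearMap.proj_apply, smul_eq_mul, h1, permRep_apply, gramZ,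
    Int.cast_sum, Int.cast_mul]
  refine Fintype.sum_bijective (fun L : Lab N => L ∘ ⇑a⁻¹) ?_ _ _ fun L => ?_
  · exact (Equiv.arrowCongr a (Equiv.refl (Fin N))).bijective
  · have e : (L ∘ ⇑a⁻¹) ∘ ⇑(a * g * b) = L ∘ ⇑g ∘ ⇑b := by funext z; simp
    simp only [polyC, e, Function.comp_assoc]

/-- The products of two coefficient functions modulo two. -/
noncomputable def prodGram (row col : Lab N)
    (i : Equiv.Perm (Fin N) × Equiv.Perm (Fin N) × Equiv.Perm (Fin N) × Equiv.Perm (Fin N)) :
    GF N := fun g => gram row col (i.1 * g * i.2.1) * gram row col (i.2.2.1 * g * i.2.2.2)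

/-- The products of two coefficient functions. -/
noncomputable def prodGramZ (row col : Lab N)
    (i : Equiv.Perm (Fin N) × Equiv.Perm (Fin N) × Equiv.Perm (Fin N) × Equiv.Perm (Fin N))
    (g : Equiv.Perm (Fin N)) : ℤ :=
  gramZ row col (i.1 * g * i.2.1) * gramZ row col (i.2.2.1 * g * i.2.2.2)

theorem cast_prodGramZ {row col : Lab N} (h : IsTableau row col)
    (i : Equiv.Perm (Fin N) × Equiv.Perm (Fin N) × Equiv.Perm (Fin N) × Equiv.Perm (Fin N))
    (g : Equiv.Perm (Fin N)) : (prodGramZ row col i g : F2) = prodGram row col i g := by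
  simp [prodGramZ, prodGram, cast_gramZ h]

theorem span_prodGram_stable (row col : Lab N) (T : GF N →ₗ[F2] GF N)
    (hT : ∀ i, T (prodGram row col i) ∈ Submodule.span F2 (Set.range (prodGram row col))) :
    ∀ f ∈ Submodule.span F2 (Set.range (prodGram row col)),
      T f ∈ Submodule.span F2 (Set.range (prodGram row col)) :=
  fun _ hf => (Submodule.span_le.2 (by rintro _ ⟨i, rfl⟩; exact hT i) :
    Submodule.span F2 (Set.range (prodGram row col)) ≤
      (Submodule.span F2 (Set.range (prodGram row col))).comap T) hf

theorem span_prodGram_translate (row col : Lab N) {f : GF N}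
    (hf : f ∈ Submodule.span F2 (Set.range (prodGram row col))) (u v : Equiv.Perm (Fin N)) :
    (fun g => f (u * g * v)) ∈ Submodule.span F2 (Set.range (prodGram row col)) :=
  span_prodGram_stable row col (LinearMap.funLeft F2 F2 fun g => u * g * v) (fun i => by
    have e : (LinearMap.funLeft F2 F2 fun g => u * g * v) (prodGram row col i) =
        prodGram row col (i.1 * u, v * i.2.1, i.2.2.1 * u, v * i.2.2.2) := funext fun g => by
      simp only [prodGram, LinearMap.funLeft_apply, mul_assoc]
    rw [e]
    exact Submodule.subset_span (Set.mem_range_self _)) f hf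

theorem span_prodGram_inv (row col : Lab N) {f : GF N}
    (hf : f ∈ Submodule.span F2 (Set.range (prodGram row col))) :
    (fun g => f g⁻¹) ∈ Submodule.span F2 (Set.range (prodGram row col)) :=
  span_prodGram_stable row col (LinearMap.funLeft F2 F2 fun g => g⁻¹) (fun i => by
    have e : (LinearMap.funLeft F2 F2 fun g => g⁻¹) (prodGram row col i) =
        prodGram row col (i.2.1⁻¹, i.1⁻¹, i.2.2.2⁻¹, i.2.2.1⁻¹) := funext fun g => by
      simp only [prodGram, LinearMap.funLeft_apply]
      rw [← gram_inv row col (i.1 * g⁻¹ * i.2.1), ← gram_inv row col (i.2.2.1 * g⁻¹ * i.2.2.2)]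
      simp only [mul_inv_rev, inv_inv, mul_assoc]
    rw [e]
    exact Submodule.subset_span (Set.mem_range_self _)) f hf

theorem span_prodGram_top {row col : Lab N}
    (hodd : ∀ r c : Lab N, IsTableau r c → IsStrict r → ∃ a b a' b' : Equiv.Perm (Fin N),
      ∑ g, gram row col (a * g * b) * gram row col (a' * g * b') * gram r c g ≠ 0) :
    Submodule.span F2 (Set.range (prodGram row col)) = ⊤ :=
  eq_top_of_gram _ (fun _ hf u v => span_prodGram_translate row col hf u v)
    (fun _ hf => span_prodGram_inv row col hf) fun r c hrc hs => by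
      obtain ⟨a, b, a', b', hne⟩ := hodd r c hrc hs
      exact ⟨prodGram row col (a, b, a', b'), Submodule.subset_span (Set.mem_range_self _), hne⟩

/-- A function orthogonal to all products of coefficient functions vanishes. -/
theorem eq_zero_of_orth {row col : Lab N} (h : IsTableau row col)
    (htop : Submodule.span F2 (Set.range (prodGram row col)) = ⊤)
    {x : Equiv.Perm (Fin N) → ℂ} (hx : ∀ i, ∑ g, x g * (prodGramZ row col i g : ℂ) = 0) :
    x = 0 := by
  classical
  have hdelta : ∀ u : Equiv.Perm (Fin N), ∃ c :
      Equiv.Perm (Fin N) × Equiv.Perm (Fin N) × Equiv.Perm (Fin N) × Equiv.Perm (Fin N) → F2,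
      ∑ i, c i • prodGram row col i = Pi.single u (1 : F2) := fun u =>
    (Submodule.mem_span_range_iff_exists_fun F2).1 (htop ▸ Submodule.mem_top)
  choose c hc using hdelta
  set M : Matrix (Equiv.Perm (Fin N)) (Equiv.Perm (Fin N)) ℤ :=
    Matrix.of fun u g => ∑ i, ((c u i).val : ℤ) * prodGramZ row col i g with hMdef
  have hM : M.map (Int.castRingHom F2) = 1 := by
    refine Matrix.ext fun u g => ?_
    have := congrFun (hc u) g
    simp only [Finset.sum_apply, Pi.smul_apply, smul_eq_mul] at this
    simp only [hMdef, Matrix.map_apply, Matrix.of_apply, map_sum, map_mul, eq_intCast, cast_prodGramZ h,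
      Int.cast_natCast, ZMod.natCast_zmod_val]
    rw [this, Matrix.one_apply, Pi.single_apply]
    simp [eq_comm]
  have hdet : (M.map (Int.castRingHom ℂ)).det ≠ 0 := by
    rw [← RingHom.mapMatrix_apply, ← RingHom.map_det]
    intro h0
    have h1 : (Int.castRingHom F2) M.det = 1 := by
      rw [RingHom.map_det, RingHom.mapMatrix_apply, hM, Matrix.det_one]
    rw [eq_intCast, Int.cast_eq_zero] at h0
    rw [h0, map_zero] at h1
    exact zero_ne_one h1
  refine Matrix.eq_zero_of_mulVec_eq_zero hdet (funext fun u => ?_)
  simp only [Matrix.mulVec, dotProduct, Matrix.map_apply, hMdef, Matrix.of_apply, map_sum, map_mul,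
    Finset.sum_mul,
    Pi.zero_apply]
  rw [Finset.sum_comm]
  refine Finset.sum_eq_zero fun i _ => ?_
  have e : ∀ g, (Int.castRingHom ℂ) ((c u i).val : ℤ) * (Int.castRingHom ℂ) (prodGramZ row col i g) *
      x g = (Int.castRingHom ℂ) ((c u i).val : ℤ) * (x g * (prodGramZ row col i g : ℂ)) :=
    fun g => by rw [eq_intCast (Int.castRingHom ℂ) (prodGramZ row col i g)]; ring
  simp only [e, ← Finset.mul_sum, hx i, mul_zero]

/-- A translate of the polytabloid in the Specht module. -/
noncomputable def transl (row col : Lab N) (b : Equiv.Perm (Fin N)) : spechtC row col :=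
  ⟨permRep N b (polyC row col), Submodule.subset_span ⟨b, rfl⟩⟩

theorem coef_tensor (row col : Lab N)
    (i : Equiv.Perm (Fin N) × Equiv.Perm (Fin N) × Equiv.Perm (Fin N) × Equiv.Perm (Fin N))
    (g : Equiv.Perm (Fin N)) :
    ((LinearMap.mul' ℂ ℂ).comp (TensorProduct.map (coefC row col i.1) (coefC row col i.2.2.1)))
      ((spechtRep row col).tprod (spechtRep row col) g
        (transl row col i.2.1 ⊗ₜ[ℂ] transl row col i.2.2.2)) = (prodGramZ row col i g : ℂ) := by
  simp only [Representation.tprod_apply, LinearMap.comp_apply, TensorProduct.map_tmul,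
    LinearMap.mul'_apply]
  rw [coefC_apply _ _ _ g i.2.1 _ rfl, coefC_apply _ _ _ g i.2.2.2 _ rfl]
  simp [prodGramZ]

/-- The averaged map `v ↦ ∑ φ (σ g⁻¹ v) • τ g t` is intertwining. -/
theorem avg_equivariant {G V T : Type*} [Group G] [Fintype G] [AddCommGroup V] [Module ℂ V]
    [AddCommGroup T] [Module ℂ T] (σ : Representation ℂ G V) (τ : Representation ℂ G T)
    (φ : V →ₗ[ℂ] ℂ) (t : T) (u : G) (w : V) :
    (∑ g : G, (φ.comp (σ g⁻¹)).smulRight (τ g t)) (σ u w) =
      τ u ((∑ g : G, (φ.comp (σ g⁻¹)).smulRight (τ g t)) w) := by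
  simp only [LinearMap.sum_apply, LinearMap.smulRight_apply, LinearMap.comp_apply, map_sum,
    map_smul]
  refine Fintype.sum_equiv (Equiv.mulLeft u⁻¹) _ _ fun g => ?_
  simp only [Equiv.coe_mulLeft, mul_inv_rev, inv_inv, map_mul, Module.End.mul_apply]
  rw [← Module.End.mul_apply (τ u), ← map_mul, mul_inv_cancel, map_one, Module.End.one_apply]

/-- If the products of two coefficient functions pair oddly with all Gram matrices of strict
shapes, the tensor square of the Specht module receives every representation. -/
theorem saxl_of_parity {row col : Lab N} (h : IsTableau row col)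
    (hodd : ∀ r c : Lab N, IsTableau r c → IsStrict r → ∃ a b a' b' : Equiv.Perm (Fin N),
      ∑ g, gram row col (a * g * b) * gram row col (a' * g * b') * gram r c g ≠ 0)
    {V : Type*} [AddCommGroup V] [Module ℂ V] [Nontrivial V]
    (σ : Representation ℂ (Equiv.Perm (Fin N)) V) :
    ∃ f : σ.IntertwiningMap ((spechtRep row col).tprod (spechtRep row col)), f ≠ 0 := by
  classical
  obtain ⟨v, hv⟩ := exists_ne (0 : V)
  obtain ⟨φ, hφ⟩ := Module.Projective.exists_dual_ne_zero ℂ hv
  by_contra hzero
  push Not at hzero
  have hcoef : ∀ i, ∑ g, φ (σ g⁻¹ v) * (prodGramZ row col i g : ℂ) = 0 := fun i => by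
    let t := transl row col i.2.1 ⊗ₜ[ℂ] transl row col i.2.2.2
    have h1 := congrArg (fun F : σ.IntertwiningMap _ => F v)
      (hzero (LinearMap.intertwiningMap_of_isIntertwiningMap σ
        ((spechtRep row col).tprod (spechtRep row col))
        (∑ g, (φ.comp (σ g⁻¹)).smulRight ((spechtRep row col).tprod (spechtRep row col) g t))
        (avg_equivariant σ _ φ t)))
    have h2 := congrArg ((LinearMap.mul' ℂ ℂ).comp
      (TensorProduct.map (coefC row col i.1) (coefC row col i.2.2.1)))
      (show (∑ g, (φ.comp (σ g⁻¹)).smulRight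
        ((spechtRep row col).tprod (spechtRep row col) g t)) v = 0 from h1)
    rw [LinearMap.sum_apply, map_sum, map_zero] at h2
    rw [← h2]
    refine Finset.sum_congr rfl fun g _ => ?_
    rw [LinearMap.smulRight_apply, map_smul, smul_eq_mul, coef_tensor, LinearMap.comp_apply]
  have h1 := congrFun (eq_zero_of_orth h (span_prodGram_top hodd) hcoef) 1
  exact hφ (by simpa using h1)

/-- Every irreducible representation embeds into the tensor square. -/
theorem saxl_irreducible_of_parity {row col : Lab N} (h : IsTableau row col)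
    (hodd : ∀ r c : Lab N, IsTableau r c → IsStrict r → ∃ a b a' b' : Equiv.Perm (Fin N),
      ∑ g, gram row col (a * g * b) * gram row col (a' * g * b') * gram r c g ≠ 0)
    {V : Type*} [AddCommGroup V] [Module ℂ V]
    (σ : Representation ℂ (Equiv.Perm (Fin N)) V) [σ.IsIrreducible] :
    ∃ f : σ.IntertwiningMap ((spechtRep row col).tprod (spechtRep row col)),
      Function.Injective f := by
  have : Nontrivial V := by
    by_contra hV
    rw [not_nontrivial_iff_subsingleton] at hV
    refine bot_ne_top (α := Subrepresentation σ)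
      (Subrepresentation.toSubmodule_injective (Subsingleton.elim _ _))
  obtain ⟨f, hf⟩ := saxl_of_parity h hodd σ
  refine ⟨f, ?_⟩
  let K : Subrepresentation σ := ⟨LinearMap.ker f.toLinearMap, fun g v hv => by
    rw [LinearMap.mem_ker] at hv ⊢
    show f (σ g v) = 0
    rw [f.isIntertwining]
    show (spechtRep row col).tprod (spechtRep row col) g (f.toLinearMap v) = 0
    rw [hv, map_zero]⟩
  rcases eq_bot_or_eq_top K with hK | hK
  · have h0 : LinearMap.ker f.toLinearMap = ⊥ := congrArg Subrepresentation.toSubmodule hK
    intro x y hxy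
    have h1 : x - y ∈ LinearMap.ker f.toLinearMap := LinearMap.mem_ker.2 (by
      rw [map_sub, sub_eq_zero]; exact hxy)
    rw [h0] at h1
    exact sub_eq_zero.1 h1
  · have h0 : LinearMap.ker f.toLinearMap = ⊤ := congrArg Subrepresentation.toSubmodule hK
    refine absurd (Representation.IntertwiningMap.ext (LinearMap.ext fun v => ?_)) hf
    exact LinearMap.mem_ker.1 (h0 ▸ Submodule.mem_top)

/-! ### Staircases -/

theorem staircase_card (m : ℕ) :
    Fintype.card (Σ a : Fin m, Fin (m - a)) = m * (m + 1) / 2 := by
  simp only [Fintype.card_sigma, Fintype.card_fin]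
  rw [Fin.sum_univ_eq_sum_range (fun a => m - a)]
  have h : ∀ n, 2 * ∑ a ∈ Finset.range n, (n - a) = n * (n + 1) := by
    intro n
    induction n with
    | zero => simp
    | succ n ih =>
      rw [Finset.sum_range_succ']
      simp only [Nat.add_sub_add_right, Nat.sub_zero]
      rw [mul_add, ih]
      ring
  have := h m
  omega

/-- The staircase shape exists. -/
theorem exists_staircase (m : ℕ) : ∃ row col : Lab (m * (m + 1) / 2),
    IsTableau row col ∧ ∀ a, cnt row a = m - (a : ℕ) := by
  classical
  set N := m * (m + 1) / 2 with hN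
  have hmN : m ≤ N := by
    rcases Nat.eq_zero_or_pos m with rfl | hm
    · exact Nat.zero_le _
    · rw [hN, Nat.le_div_iff_mul_le two_pos]
      exact Nat.mul_le_mul_left m (by omega)
  let e : Fin N ≃ Σ a : Fin m, Fin (m - a) := (Fintype.equivFinOfCardEq (staircase_card m)).symm
  let row : Lab N := fun z => ⟨(e z).1, lt_of_lt_of_le (e z).1.isLt hmN⟩
  let col : Lab N := fun z => ⟨(e z).2, lt_of_lt_of_le (lt_of_lt_of_le (e z).2.isLt
    (Nat.sub_le _ _)) hmN⟩
  have hinj : Function.Injective fun x => (row x, col x) := by
    intro x y hxy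
    simp only [Prod.mk.injEq, row, col, Fin.mk.injEq] at hxy
    refine e.injective ?_
    generalize e x = p at hxy
    generalize e y = q at hxy
    obtain ⟨p1, p2⟩ := p
    obtain ⟨q1, q2⟩ := q
    obtain rfl : p1 = q1 := Fin.ext hxy.1
    obtain rfl : p2 = q2 := Fin.ext hxy.2
    rfl
  have hcell : ∀ a b : Fin N, (a : ℕ) + b < m → ∃ y, row y = a ∧ col y = b := fun a b hab =>
    ⟨e.symm ⟨⟨a, by omega⟩, ⟨b, by simp only; omega⟩⟩,
      by apply Fin.ext; simp [row], by apply Fin.ext; simp only [col]; rw [Equiv.apply_symm_apply]⟩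
  have hlt : ∀ x, (row x : ℕ) + col x < m := fun x => by
    have := (e x).2.isLt
    simp only [row, col]
    omega
  have htab : IsTableau row col := ⟨hinj, fun x a b ha hb => hcell a b (by
    have := hlt x; rw [Fin.le_def] at ha hb; omega)⟩
  refine ⟨row, col, htab, fun a => ?_⟩
  have h1 : #({b | (b : ℕ) < m - (a : ℕ)} : Finset (Fin N)) = m - a := by
    rw [Fin.card_filter_val_lt]; omega
  rw [← h1]
  refine Finset.card_nbij col (fun z hz => ?_) (fun z hz w hw e' => hinj ?_) fun b hb => ?_
  · simp only [Finset.coe_filter, Finset.mem_univ, true_and, Set.mem_ofPred_eq] at hz ⊢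
    have := hlt z
    rw [hz] at this
    omega
  · simp only [Finset.coe_filter, Finset.mem_univ, true_and, Set.mem_ofPred_eq] at hz hw
    simp [hz, hw, e']
  · simp only [Finset.coe_filter, Finset.mem_univ, true_and, Set.mem_ofPred_eq] at hb
    obtain ⟨y, hy, hy'⟩ := hcell a b (by omega)
    exact ⟨y, by simp [hy], hy'⟩

end Vale.Agent.P197
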